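import Vale.Agent.P011UHR.Case
import Vale.Agent.P011UC.Tr

/-!
The position of a chamber can be shortened over a solvable extension: assembly.
-/

set_option autoImplicit false
set_option linter.all false

namespace Vale.Agent.P011UV4

open Matrix Vale.Agent.P011L Vale.Agent.P183CH Vale.Agent.P011U Vale.Agent.P011UHB
  Vale.Agent.P011UHR
open Vale.Agent.P011UC (pa)

theorem red_of (cm : P011UHR.CMP) (sp : SPL) (cs : CASE) : RED := by
  intro k K _ _ _ _ _ D hD T l L θ π y a ho hp hc hr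
  haveI : IsGalois k K := IsSepClosure.isGalois
  haveI := hc.gal
  have hR := Chev.R_ok D
  have hΓ := GG_ok (D := D) (k := K)
  have hl : l = 3 ∨ l = 5 := ho.imp id And.left
  have ta : ∀ ρ : K ≃ₐ[k] K, Fx (L : Set K) ρ → ∀ x, T.a (θ * ρ) x = T.a θ (fs D ρ x) :=
    fun ρ e x => by rw [map_mul, MulAut.mul_apply, hc.sp ρ e]
  have g1 : Good L (T.a θ).toMonoidHom (θ : K →+* K) := fun σ e => by
    have e' := fx_conj (fun x hx => map_L θ hx) e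
    refine ⟨_, e', fun u => (θ.apply_symm_apply _).symm, fun x => ?_⟩
    show _ = T.a θ _
    rw [← ta _ e', show θ * (θ⁻¹ * σ * θ) = σ * θ by group, map_mul, MulAut.mul_apply, hc.sp σ e]
    rfl
  obtain ⟨g0, c0, s0, b0, b1, n0, b2, b3, b4, b5⟩ := hc.pos
  obtain ⟨t, ht, c, hg, hs⟩ := g1.std s0
  have hc' : Cell (GG D K) (y⁻¹ * T.a θ y * (g0 * t)) a :=
    ⟨b0, b1, n0, b2 * t, mul_mem b3 (RG.T_le_Bo ht), b4, by rw [← mul_assoc, b5, mul_assoc]⟩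
  generalize g0 * t = g at hg hs hc'
  obtain ⟨Fr, q, f1, ⟨Φ, g0', c0', s1, f2⟩, f3⟩ := sp k K D hD T l hp
  have f4 : ∀ (σ : K ≃ₐ[k] K) u, σ (Fr u) = Fr (σ u) := fun σ u => by rw [f1, f1, map_pow]
  have g2 : Good L Φ Fr := fun σ e => ⟨σ, e, f4 σ, fun x =>
    (hc.sp σ e _).symm.trans ((f2 σ nofun x).symm.trans (congrArg Φ (hc.sp σ e x)))⟩
  obtain ⟨t', -, c', hg', hs'⟩ := g2.std (g := g0') (c := c0') (π := 1)
    ((funext f1 : ⇑Fr = (· ^ q)) ▸ s1)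
  generalize g0' * t' = g' at hg' hs'
  obtain ⟨J, hJ, H⟩ := cs k K D l L θ Fr π a hl hc.deg hc.gal hc.ne
    (fun u hu => f1 u ▸ pow_mem hu q) (fun u => (f4 θ u).symm) f3 hs.1 b4.mem_W hr
  obtain ⟨y₁, a1, n, a2, a3, z, a4, r, a5, a6⟩ := g1.dec hs hg hc.fix hc' hJ
  obtain ⟨a7, r', a8, a9⟩ := twist hs hs' (f2 θ nofun) (fun u => (f4 θ u).symm) a3 a5 a6
  have c1 := mul_mem a2 (inv_mem hg)
  have c2 := mul_mem (mul_mem (mul_mem (inv_mem hg') (g2.mem c1)) (g1.mem hg')) hg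
  have c3 := (g2.cj (mul_mem (one_mem _) (inv_mem hg'))).act (std_cj hs' 1) (RG.rep_T (one_mem _))
  rw [show (1 : D.R.Aut) * pa D.R 1 = 1 from rfl] at c3
  obtain ⟨F, θ', d1, d2, d3, h, d4, d5, b, d6, n', s, d7, d8, d9⟩ := H _ _ _
    ((g1.cj c1).act (std_cj hs n) a3) ((g1.cj (mul_mem c2 (inv_mem hg))).act (std_cj hs _) a7) c3
    (fun x => by
      have := f2 θ nofun x
      simp only [cj_apply, map_mul, map_inv, MulEquiv.coe_toMonoidHom, map_one, this]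
      group) z a4
  have e1 : ¬Fx (L : Set K) θ' := fun e => hc.ne
    ((by group : θ' * (θ⁻¹ * θ')⁻¹ = θ) ▸ fx_mul e (fx_inv d3))
  obtain ⟨L', e2, e3, e4⟩ := cm k K l L F θ' (hl.elim (· ▸ Nat.prime_three) (· ▸ Nat.prime_five))
    hc.deg hc.gal d2 e1
  refine ⟨T, F, P011UC.eqv_refl T, d1, fun T'' hT => ?_⟩
  let θ'' : K ≃ₐ[F] K := AlgEquiv.ofRingEquiv (f := θ'.toRingEquiv) fun x => d2 x x.2
  have e5 : ∀ x, T''.a θ'' x = T.a θ (fs D (θ⁻¹ * θ') x) := fun x => by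
    rw [hT, ← ta _ d3, mul_inv_cancel_left]
    rfl
  have e6 : ∀ σ : K ≃ₐ[F] K, Fx (L' : Set K) σ →
      Fx ((L ⊔ F : IntermediateField k K) : Set K) (σ.restrictScalars k) :=
    fun σ e x hx => e x ((e2 x).2 hx)
  have e7 : ∀ σ : K ≃ₐ[F] K, Fx (L' : Set K) σ → Fx (L : Set K) (σ.restrictScalars k) :=
    fun σ e x hx => e6 σ e x ((le_sup_left : L ≤ L ⊔ F) hx)
  have e8 := mul_mem (g2.mem a1) hg'
  have e9 : g⁻¹ * (T.a θ).toMonoidHom (fs D (θ⁻¹ * θ') h) * g ∈ (GG D K).GJ (π '' J) :=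
    Subgroup.mem_sup_left (P011UP.std_X hΓ hs hR (S := {γ | D.R.In J γ})
      (S' := {γ | D.R.In (π '' J) γ})
      (fun γ e _ i hi => e _ fun c => hi ⟨_, c, π.apply_symm_apply i⟩)
      (one_X hΓ hR (std_fs (θ⁻¹ * θ')) d4))
  have e10 : _ ∈ (GG D K).U :=
    RG.X_mono (fun γ e _ => e.1) (nm_R hΓ hR (π '' J) _ (inv_mem e9) _ a8)
  refine ⟨L', θ'', Φ y₁ * g' * h, s * a, ⟨e3, e4, fun e => e1 (e7 _ e), fun σ e x => ?_,
    fun σ e => ?_, g, c, ⟨hs.1, fun i u => ?_⟩, b, d6, n' * _, _, RG.U_le_Bo e10, d7.mul a7, ?_⟩, d8⟩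
  · rw [hT]
    exact hc.sp _ (e7 σ e) x
  · show fs D (σ.restrictScalars k) _ = _
    rw [map_mul, e8 _ (e7 σ e), d5 _ (e6 σ e)]
  · have e : θ'' u = θ ((θ⁻¹ * θ') u) := (θ.apply_symm_apply _).symm
    rw [e5, e5, fm_x, fm_x, e]
    exact hs.2 i _
  · rw [e5, map_mul (fs D _), e8 _ d3, map_mul (T.a θ), ← mul_assoc b, ← d9]
    have a9 : (Φ y₁ * g')⁻¹ * T.a θ (Φ y₁ * g') * g = _ := a9
    rw [show T.a θ (Φ y₁ * g') = Φ y₁ * g' * ((Φ y₁ * g')⁻¹ * T.a θ (Φ y₁ * g') * g) * g⁻¹ by group,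
      a9]
    simp only [cj_apply, MulEquiv.coe_toMonoidHom]
    group

end Vale.Agent.P011UV4
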