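import Vale.Agent.P011UQ.Tz
import Vale.Agent.P011UI.Ldu
import Vale.Agent.P011U.Top

/-!
The restriction of a twisted action to a stable subgroup.
-/

set_option autoImplicit false
set_option linter.all false

namespace Vale.Agent.P011UV4

open Matrix Vale.Agent.P011L Vale.Agent.P011LD Vale.Agent.P011U Vale.Agent.P011UI

variable {k K : Type} [Field k] [Field K] [Algebra k K] {n : Type} [Fintype n] [DecidableEq n]
  {H H' : Subgroup (GL n K)} {y : GL n K} {f : H' →* H}

theorem cj_inj (hf : ∀ p, (f p).1 = y * p.1 * y⁻¹) : Function.Injective f := fun p q h => by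
  have := (hf p).symm.trans ((congrArg Subtype.val h).trans (hf q))
  exact Subtype.ext (by simpa using this)

/-- The action on a stable conjugate of a subgroup. -/
theorem tw_sub [Algebra.IsAlgebraic k K] (T : Tw k H) (hf : ∀ p, (f p).1 = y * p.1 * y⁻¹)
    (hs : ∀ σ p, ∃ q, f q = T.a σ (f p)) : ∃ T' : Tw k H', ∀ σ p, f (T'.a σ p) = T.a σ (f p) := by
  choose b hb using hs
  have hi := cj_inj hf
  have e : ∀ σ τ p, b σ (b τ p) = b (σ * τ) p := fun σ τ p => hi (by
    rw [hb, hb, hb, map_mul]; rfl)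
  have e1 : ∀ p, b 1 p = p := fun p => hi (by rw [hb, map_one]; rfl)
  have e2 : ∀ σ p, (b σ p).1.1 = (y⁻¹).1 * (T.a σ (f p)).1.1 * y.1 := fun σ p => by
    rw [← hb, hf]
    simp [mul_assoc]
  let a : (K ≃ₐ[k] K) → MulAut H' := fun σ =>
    ⟨⟨b σ, b σ⁻¹, fun p => by rw [e, inv_mul_cancel, e1], fun p => by rw [e, mul_inv_cancel, e1]⟩,
      fun p q => hi (by
        show f (b σ (p * q)) = f (b σ p * b σ q)
        rw [map_mul, hb, hb, hb, map_mul, map_mul])⟩
  refine ⟨⟨MonoidHom.mk' a fun σ τ => MulEquiv.ext fun p => (e σ τ p).symm, fun σ i j => ?_, ?_⟩, hb⟩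
  · have h1 : En (PF fun p : H' => p.1.1.map σ) fun p : H' => (f p).1.1.map σ := by
      have := ((En.const (y.1.map σ)).mul (en_PF fun p : H' => p.1.1.map σ)).mul
        (En.const ((y⁻¹).1.map σ))
      simpa only [hf, Units.val_mul, map_mul'] using this
    have h2 : En (PF fun p : H' => p.1.1.map σ) fun p : H' => (T.a σ (f p)).1.1 := fun i j => by
      obtain ⟨q, hq⟩ := T.pol σ i j
      simp only [hq]
      exact h1.eval q
    obtain ⟨q, hq⟩ := mem_PF.1 (((En.const (y⁻¹).1).mul h2).mul (En.const y.1) i j)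
    exact ⟨q, fun p => (congrFun (congrFun (e2 σ p) i) j).trans (hq p)⟩
  · obtain ⟨F, _, h⟩ := T.cont
    have h1 : Op ⊤ fun σ : K ≃ₐ[k] K => ∀ g : H, (T.a σ g).1.1 = g.1.1.map σ :=
      Op.of_field F fun σ _ => h σ
    refine P011UQ.op_near (((h1.and (Op.mat ⊤ y.1)).and (Op.mat ⊤ (y⁻¹).1)).imp
      fun σ _ h2 p => (e2 σ p).trans ?_)
    rw [h2.1.1, hf, Units.val_mul, Units.val_mul, map_mul', map_mul', h2.1.2, h2.2]
    simp [mul_assoc]

theorem ani_sub {T : Tw k H} {T' : Tw k H'} (hf : ∀ p, (f p).1 = y * p.1 * y⁻¹)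
    (h : ∀ σ p, f (T'.a σ p) = T.a σ (f p)) (an : T.Ani) : T'.Ani := fun g w l h1 h2 =>
  an (y * g) w (fun t => f (l t)) (fun t => by
    rw [hf, Units.val_mul, Units.val_mul, Units.val_mul, mul_assoc _ g.1, ← h1]
    simp [mul_assoc]) fun σ t => by rw [← h, h2]

/-- The rational points of the subgroup lie in every noncentral normal subgroup. -/
theorem mem_of {T : Tw k H} {T' : Tw k H'} (hi : Function.Injective f)
    (h : ∀ σ p, f (T'.a σ p) = T.a σ (f p)) (ht : Tors T.fix) (hs : PSimple T'.fix)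
    (hn : ∃ g : T'.fix, ∀ m : ℕ, 0 < m → g ^ m ∉ Subgroup.center T'.fix) (N : Subgroup T.fix)
    (h1 : N.Normal) (h2 : ¬N ≤ Subgroup.center T.fix) (g : T.fix) (p : H') (e : f p = g.1) :
    g ∈ N := by
  let φ : T'.fix →* T.fix := (f.comp T'.fix.subtype).codRestrict _ fun p σ =>
    (h σ p).symm.trans (congrArg f (p.2 σ))
  obtain ⟨x, hx⟩ := hn
  obtain ⟨m, hm, h3⟩ := ht N h1 h2 (φ x)
  have h4 := hs (N.comap φ) (h1.comap φ) fun h5 => hx m hm (h5 (by
    rw [Subgroup.mem_comap, map_pow]; exact h3))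
  have h5 : (⟨p, fun σ => hi (by rw [h, e, g.2 σ])⟩ : T'.fix) ∈ N.comap φ := h4.ge trivial
  exact (congrArg (· ∈ N) (Subtype.ext e)).mp h5

end Vale.Agent.P011UV4
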