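import Vale.Agent.P011UV4.Em
import Vale.Agent.P011UV4.Tw
import Vale.Agent.P011UHB.E6

/-!
The form of a component of a stable Levi subgroup.
-/

set_option autoImplicit false
set_option linter.all false

namespace Vale.Agent.P011UV4

open Matrix Vale.Agent.P011L Vale.Agent.P011LD Vale.Agent.P183CH Vale.Agent.P183CH.RG
  Vale.Agent.P011U Vale.Agent.P011UP Vale.Agent.P011UQ Vale.Agent.P011UGR1 Vale.Agent.P011UHB

theorem op_rs {k K : Type} [Field k] [Field K] [Algebra k K] {P : (K ≃ₐ[k] K) → Prop} (h : Op ⊤ P)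
    (L : IntermediateField k K) : Op ⊤ fun σ : K ≃ₐ[L] K => P (σ.restrictScalars k) :=
  h.elim fun S hS => ⟨S, fun σ _ e => hS _ trivial e⟩

theorem cmp0 {k K : Type} [Field k] [Field K] [Algebra k K] [IsGalois k K] [Infinite K] {D D' : Chev}
    (hD : SC D) {T : Tw k (D.grp K)} (h1 : In1 T ∅) {J : Set (Fin D.R.r)} (hP : Par T J)
    {ι : Fin D'.R.r → Fin D.R.r} {f : D'.grp K →* D.grp K} (H : Em (GG D K) (GG D' K) ι f)
    (hi : Function.Injective f) (hm1 : ∀ p, f p ∈ LJ (GG D K) (Set.range ι))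
    (hm2 : ∀ g ∈ LJ (GG D K) (Set.range ι), ∃ x, f x = g)
    (tw : (∀ σ p, ∃ q, f q = T.a σ (f p)) →
      ∃ T' : Tw k (D'.grp K), ∀ σ p, f (T'.a σ p) = T.a σ (f p))
    (hJ : Set.range ι ⊆ J) (ho : ∀ j ∈ J, j ∉ Set.range ι → ∀ i, D.R.A j (ι i) = 0) :
    ∃ T' : Tw k (D'.grp K), In1 T' ∅ ∧
      (∀ J', FixP T' J' → FixP T ((J \ Set.range ι) ∪ ι '' J')) ∧
      ((∀ i, ∃ γ : D.R.Q, ∀ j, D.R.pr γ j = if j = ι i then 1 else 0) → Lift T') ∧
      ∀ (L : IntermediateField k K) (T₁ : Tw L (D.grp K)) (T₁' : Tw L (D'.grp K)),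
        FiniteDimensional k L → Res T L T₁ → Res T' L T₁' → Lift T₁ → Lift T₁' := by
  obtain ⟨g, c, π, hN, hg⟩ := hP
  have hR := Chev.R_ok D
  obtain rfl : π = fun _ => 1 := funext fun σ => by
    obtain ⟨g', c', h⟩ := h1 σ nofun
    exact (std_uniq GG_ok hR h (hN.1 σ) (map_one σ)).1
  have or : ∀ a ∈ Set.range ι, ∀ b ∈ J \ Set.range ι, D.R.A a b = 0 := by
    rintro _ ⟨i, rfl⟩ b hb
    exact hR.A_zero_comm.1 (ho b hb.1 hb.2 i)
  have cm : ∀ p, ∀ x ∈ LJ (GG D K) (J \ Set.range ι), Commute (f p) x := fun p x hx =>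
    comm_LJ GG_ok hR or (hm1 p) hx
  have sp : ∀ σ, ∃ a, ∃ b ∈ LJ (GG D K) (J \ Set.range ι), g σ = f a * b ∧
      (g σ = 1 → a = 1) := fun σ => by
    by_cases e : g σ = 1
    · exact ⟨1, 1, one_mem _, by simp [e], fun _ => rfl⟩
    obtain ⟨a, ha, b, hb, e'⟩ := LJ_split GG_ok hR or (g := g σ)
      (by rw [Set.union_diff_cancel hJ]; exact (hg σ).1)
    obtain ⟨a, rfl⟩ := hm2 a ha
    exact ⟨a, b, hb, e', fun c => absurd c e⟩
  choose a b hb e1 e2 using sp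
  obtain rfl : g = fun σ => f (a σ) * b σ := funext e1
  obtain ⟨T', hT⟩ := tw fun σ p => hm2 _ (std_LJ GG_ok hR (σ := (σ : K →+* K)) (hN.1 σ)
    (hm1 _) (fun x hx => by obtain ⟨x, rfl⟩ := hm2 x hx; exact (cm x _ (hb σ)).symm) (hm1 p))
  have h2 : ∀ σ, Std (GG D' K) (T'.a σ) σ (a σ) (fun i => c σ (ι i)) 1 := fun σ => by
    have e : ∀ p, f (a σ) * b σ * f p * (f (a σ) * b σ)⁻¹ =
        f (a σ * p * (a σ)⁻¹) := fun p => by
      rw [map_mul, map_mul, map_inv, mul_assoc _ (b σ), ← (cm p _ (hb σ)).eq]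
      group
    exact ⟨fun _ _ => rfl, fun i u => ⟨hi ((hT σ _).trans ((congrArg _ (H.e i u)).trans
      (((hN.1 σ).2 _ u).1.trans ((congrArg (_ * · * _) (H.e i _).symm).trans (e _))))),
      hi ((hT σ _).trans ((congrArg _ (H.f i u)).trans
      (((hN.1 σ).2 _ u).2.trans ((congrArg (_ * · * _) (H.f i _).symm).trans (e _)))))⟩⟩
  have o1 : Op ⊤ fun τ => f (a τ) * b τ = 1 :=
    (near_op hN.2.2).imp fun τ _ e => by simpa [hN.2.1] using (e 1).1.trans hN.2.1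
  have o2 : Op ⊤ fun τ => a τ = 1 := o1.imp fun τ _ => e2 τ
  have hJ' : ∀ i, ι i ∉ J \ Set.range ι := fun i e => e.2 ⟨i, rfl⟩
  refine ⟨T', fun σ _ => ⟨_, _, h2 σ⟩,
    fun J' ⟨y, hy⟩ => ⟨f y, fun σ p hp => ?_⟩, fun h => ?_, fun L T₁ T₁' _ r1 r2 hL => ?_⟩
  · have a1 := (std_PJ GG_ok (Chev.R_ok _) (σ := (σ : K →+* K)) (std_cj (h2 σ) y) σ.surjective
      (hy σ)).1
    have a2 : (f y)⁻¹ * T.a σ (f y) * (f (a σ) * b σ) ∈
        PJ (GG D K) ((J \ Set.range ι) ∪ ι '' J') := by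
      rw [← mul_assoc, ← hT, ← map_inv, ← map_mul, ← map_mul]
      exact mul_mem (PJ_mono Set.subset_union_right (H.PJ GG_ok GG_ok hR (Chev.R_ok _) J' a1))
        (PJ_mono Set.subset_union_left (GJ_le_PJ (Subgroup.mem_sup_left (hb σ))))
    have a3 := P011UCX.std_par GG_ok hR (σ := (σ : K →+* K))
      (ψ := MulEquiv.toMonoidHom _) (std_cj (hN.1 σ) (f y)) (fun _ => Iff.rfl) hp
    exact (congrArg (· ∈ _) ((by intros; group : ∀ z w : D.grp K, z * (z⁻¹ * w * z) * z⁻¹ = w)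
      _ _)).mp (mul_mem (mul_mem a2 a3) (inv_mem a2))
  · choose γ hγ using h
    obtain ⟨-, -, -, -, -, -, o3⟩ := nf_co hD hN
    refine lift_sub hD H hJ' hb cm hT hN.1 h2 o2 (t := fun σ i => ∏ j, c σ j ^ γ i j)
      (o3.imp fun σ _ e => funext fun i => by simp [e]) fun σ τ z _ e i => ?_
    have e3 : chi0 D.R K (γ i) z = z (ι i) := by
      rw [RG.chi0_apply, Finset.prod_eq_single (ι i) (fun j _ a => by simp [hγ, a]) (by simp), hγ,
        if_pos rfl, zpow_one]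
    simp only [e, mul_zpow, Finset.prod_mul_distrib, chi0_prod, e3, map_prod, map_zpow]
    rw [mul_assoc, mul_comm (∏ _, _), ← e3, ← chi0_prod]
  · haveI := Normal.tower_top_of_normal k L K
    obtain ⟨g1, c1, π1, hN1, h3⟩ := hL
    have h4 : ∀ σ : K ≃ₐ[L] K, Std (GG D K) (T₁.a σ) σ (f (a (σ.restrictScalars k)) *
        b (σ.restrictScalars k)) (c (σ.restrictScalars k)) 1 := fun σ => r1 σ ▸ hN.1 _
    choose a1 s a2 a3 using fun σ => std_uniq GG_ok hR (hN1.1 σ) (h4 σ) (map_one σ)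
    obtain rfl : g1 = fun σ => f (a (σ.restrictScalars k)) * b (σ.restrictScalars k) *
        GG_ok.hT (s σ) := funext fun σ => by rw [← a2, mul_inv_cancel_left]
    have o3 : Op ⊤ fun τ => s τ = 1 := ((op_rs o1 L).and (near_op hN1.2.2)).imp fun τ _ e => by
      have := (e.2 1).1.trans hN1.2.1
      beta_reduce at this
      rw [one_mul, e.1, one_mul] at this
      exact hD.hT_inj (this.trans (map_one _).symm)
    refine lift_sub hD H hJ' (fun σ => hb _) cm (fun σ p => by rw [r1, r2, hT]) h4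
      (fun σ => r2 σ ▸ h2 _) (op_rs o2 L) (t := fun σ i => s σ (ι i))
      (o3.imp fun σ _ e => funext fun i => by simp [e]) fun σ τ z e _ i => ?_
    have := hD.hT_inj ((tz_mul h4 s e).symm.trans ((h3 σ τ).trans (map_one _).symm))
    exact (congrFun (inv_mul_eq_one.1 this) (ι i)).symm

theorem cmp : CMP := by
  intro k K _ _ _ _ _ D hD T h1 J hP m ι hm hc hJ ho
  haveI : Infinite K := .of_injective _ (algebraMap k K).injective
  haveI : IsGalois k K := IsSepClosure.isGalois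
  have hs := sub_simple (D := D) hm hc
  obtain ⟨T', h⟩ := cmp0 (D' := subD D ι hs) (ι := ι) (f := inc K hs) hD h1 hP
    ⟨ι.injective, fun _ _ => rfl, inc_e hs, inc_f hs⟩ (inc_inj hs) (inc_mem hs)
    (fun _ => inc_surj hs) (tw_sub (y := 1) T fun p => by rw [one_mul, inv_one, mul_one]; rfl) hJ ho
  exact ⟨subD D ι hs, Equiv.refl _, T', subD_sc hs hD, fun _ _ => rfl, h⟩

end Vale.Agent.P011UV4
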