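import Vale.Agent.P011UV4.Io
import Vale.Agent.P011U.Top

/-!
The linear algebra of type `D` of odd rank.
-/

set_option autoImplicit false
set_option linter.all false

namespace Vale.Agent.P011UV4

open Matrix Vale.Agent.P011L Vale.Agent.P011U Vale.Agent.P011LQ Vale.Agent.P011LD QuadraticMap
  Vale.Agent.P011UO Submodule

section

variable {k K : Type} [Field k] [Field K] [Algebra k K] {I : Type} [Fintype I] [DecidableEq I]
  {Q : QuadraticForm K (I → K)} {A : (K ≃ₐ[k] K) → GL I K} {L : IntermediateField k K}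
  {S : QJ k L (I → L)} {g M : GL I K} {c : K}

/-- The isometries which are trivial on the orthogonal complement of a plane are rotations. -/
theorem Ds.rot (H : Ds Q A S g c) (nd : ∀ v, (∀ w, polar Q v w = 0) → v = 0) {w : I → L}
    (hw : S.dl w ≠ 0) {x y : I → K} (h : Hp Q x y) (e : span K {x, y} = span K {io g w, io g (S.J w)})
    {u : (I → L) ≃ₗ[L] (I → L)} (hM : ∀ v, Q (M.1 *ᵥ v) = Q v) (hu : ∀ v, io g (u v) = M.1 *ᵥ io g v)
    (h1 : ∀ v, S.Or w v → u v = v) {t : k}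
    (h2 : ∀ v, u v + u.symm v - algebraMap k L t • v ∈ {x | S.Or w x}) (h3 : 2 + t ≠ 0) :
    (∀ z, polar Q x z = 0 → polar Q y z = 0 → M.1 *ᵥ z = z) ∧ ∃ d : Kˣ, M.1 *ᵥ x = (d : K) • x ∧
      M.1 *ᵥ y = ((d⁻¹ : Kˣ) : K) • y ∧ algebraMap k K (2 + t) = 2 + d + (d⁻¹ : Kˣ) := by
  have o : ∀ v, S.Or w v → polar Q x (io g v) = 0 ∧ polar Q y (io g v) = 0 := fun v hv =>
    pair_eq e (f := Q.polarBilin.flip (io g v)) (f' := 0)
      ((H.pol w v).trans (by rw [hv.1]; simp)) ((H.pol _ v).trans (by rw [hv.2]; simp))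
  have h4 : ∀ z, ∃ p ∈ span K {x, y}, ∃ z', polar Q x z' = 0 ∧ polar Q y z' = 0 ∧
      M.1 *ᵥ z' = z' ∧ z = p + z' := by
    have ad : ∀ a b : I → K, (∃ p ∈ span K {x, y}, ∃ z', polar Q x z' = 0 ∧ polar Q y z' = 0 ∧
        M.1 *ᵥ z' = z' ∧ a = p + z') → (∃ p ∈ span K {x, y}, ∃ z', polar Q x z' = 0 ∧
        polar Q y z' = 0 ∧ M.1 *ᵥ z' = z' ∧ b = p + z') → ∃ p ∈ span K {x, y}, ∃ z',
        polar Q x z' = 0 ∧ polar Q y z' = 0 ∧ M.1 *ᵥ z' = z' ∧ a + b = p + z' :=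
      fun a b ⟨p, p1, z, a1, a2, a3, a4⟩ ⟨p', p2, z', b1, b2, b3, b4⟩ =>
        ⟨p + p', add_mem p1 p2, z + z', by rw [polar_add_right, a1, b1, add_zero],
          by rw [polar_add_right, a2, b2, add_zero], by rw [mulVec_add, a3, b3],
          by rw [a4, b4]; abel⟩
    have sm : ∀ (s : K) (a : I → K), (∃ p ∈ span K {x, y}, ∃ z', polar Q x z' = 0 ∧
        polar Q y z' = 0 ∧ M.1 *ᵥ z' = z' ∧ a = p + z') → ∃ p ∈ span K {x, y}, ∃ z',
        polar Q x z' = 0 ∧ polar Q y z' = 0 ∧ M.1 *ᵥ z' = z' ∧ s • a = p + z' :=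
      fun s a ⟨p, p1, z, a1, a2, a3, a4⟩ => ⟨s • p, smul_mem _ _ p1, s • z,
        by rw [polar_smul_right, a1, smul_zero], by rw [polar_smul_right, a2, smul_zero],
        by rw [mulVec_smul, a3], by rw [a4, smul_add]⟩
    refine io_ind L g (fun v => ?_) ad sm
    have h5 := P011UD5.or_pr S w v
    have h6 := sm ((S.dl w)⁻¹ : L) _ ⟨_, e.ge (mem_span_pair.2 ⟨_, _, rfl⟩), io g (P011UD5.pr S w v),
      (o _ h5).1, (o _ h5).2, by rw [← hu, h1 _ h5], (show io g (S.dl w • v) = _ by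
        rw [P011UD5.pr, io_sub, io_sub, io_smul _ w, io_smul _ (S.J w), add_comm, sub_sub,
          sub_add_cancel])⟩
    rwa [← io_smul, inv_smul_smul₀ hw] at h6
  have h5 : ∀ z, polar Q x z = 0 → polar Q y z = 0 → M.1 *ᵥ z = z := fun z a b => by
    obtain ⟨p, p1, z', a1, a2, a3, rfl⟩ := h4 z
    rw [polar_add_right, a1, add_zero] at a
    rw [polar_add_right, a2, add_zero] at b
    rw [zero_of h p1 a b, zero_add, a3]
  have h6 : ∀ z, polar Q x (M.1 *ᵥ (M.1 *ᵥ z) + z - algebraMap k K t • (M.1 *ᵥ z)) = 0 ∧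
      polar Q y (M.1 *ᵥ (M.1 *ᵥ z) + z - algebraMap k K t • (M.1 *ᵥ z)) = 0 := io_ind L g
    (fun v => by
      have := o _ (h2 (u v))
      rwa [u.symm_apply_apply, io_sub, io_add, io_smul, hu, hu] at this)
    (fun a b ha hb => by
      have : M.1 *ᵥ (M.1 *ᵥ (a + b)) + (a + b) - algebraMap k K t • (M.1 *ᵥ (a + b)) =
          (M.1 *ᵥ (M.1 *ᵥ a) + a - algebraMap k K t • (M.1 *ᵥ a)) +
          (M.1 *ᵥ (M.1 *ᵥ b) + b - algebraMap k K t • (M.1 *ᵥ b)) := by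
        simp only [mulVec_add]
        module
      rw [this, polar_add_right, polar_add_right, ha.1, ha.2, hb.1, hb.2, add_zero]
      exact ⟨rfl, rfl⟩)
    fun s a ha => by
      have : M.1 *ᵥ (M.1 *ᵥ (s • a)) + s • a - algebraMap k K t • (M.1 *ᵥ (s • a)) =
          s • (M.1 *ᵥ (M.1 *ᵥ a) + a - algebraMap k K t • (M.1 *ᵥ a)) := by
        simp only [mulVec_smul]
        module
      rw [this, polar_smul_right, polar_smul_right, ha.1, ha.2, smul_zero]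
      exact ⟨rfl, rfl⟩
  have e2 : algebraMap k K (2 + t) = 2 + algebraMap k K t := by rw [map_add, map_ofNat]
  exact ⟨h5, e2 ▸ rot_of h nd (M := M.1.mulVecLin) hM h5 (h6 x)
    (e2 ▸ (map_ne_zero (algebraMap k K)).2 h3)⟩

end

theorem lin_of (bq : BQ1) (d2 : DO2) (d5 : DO5) (d6 : DO6) : LIN := by
  intro k K _ _ _ _ I _ _ _ Q A l nd hA hs hc hk m hm h5 hI G Γ _ _ j r s Z h N hN hZ
  haveI := Glob.inf hk
  haveI : IsSepClosed K := IsSepClosure.sep_closed k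
  obtain ⟨L, h2, hr, hp⟩ := bq k K hk I A l hA
  obtain ⟨S, g, c, a1, a2, a3⟩ := d2 k K I Q A l nd hA hs hc L h2 hp
  have H : Ds Q A S g c := ⟨a1, a2, a3⟩
  obtain ⟨r', hr'⟩ := H.exists_rep r h.ri
  have hV : Module.finrank L (I → L) = 2 * m := by rw [Module.finrank_fintype_fun_eq_card, hI]
  have b1 : ∀ x, S.Is (r' x) := fun x => H.is_of (h.ri x) (hr' x)
  have one : ∀ x, r x = 1 → r' x = 1 := fun x e => LinearEquiv.ext fun v => io_inj (g := g) (by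
    rw [hr', e]; simp)
  have b2 : ∀ t : kˣ, ∃ x, r' x = 1 ∧ s x = t ^ 2 := fun t =>
    (h.sq t).imp fun x e => ⟨one x e.1, e.2⟩
  have pl := fun w => H.plane (w := w) (fun σ => hA.ne σ trivial) hs
  have b3 : ∀ (w : I → L) (u : (I → L) ≃ₗ[L] (I → L)) (t : k), S.dl w ≠ 0 → S.Is u →
      (∀ v, S.Or w v → u v = v) → (∀ v, u v + u.symm v - algebraMap k L t • v ∈ {x | S.Or w x}) →
      2 + t ≠ 0 → ∃ x, r' x = u ∧ (s x : k) = 2 + t := fun w u t hw hu c1 c2 c3 => by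
    obtain ⟨M, m1, m2⟩ := H.ri_of hu
    obtain ⟨x, y, p1, p2, p3⟩ := pl w hw
    obtain ⟨m3, d, m4, m5, m6⟩ := H.rot nd hw p1 p3 m1.2 m2 c1 c2 c3
    obtain ⟨γ, e1, e2⟩ := h.rot M x y d (Units.mk0 _ c3) m1 p1 p2 m4 m5 m3 m6
    exact ⟨γ, LinearEquiv.ext fun v => io_inj (g := g) (by rw [hr', e1, m2]), by rw [e2]; rfl⟩
  haveI : Z.Normal := ⟨fun z hz x => by
    rwa [Subgroup.mem_center_iff.1 (h.zc hz) x, mul_inv_cancel_right]⟩
  have hj : Function.Injective j := (injective_iff_map_eq_one j).2 fun x e => h.zj x (e ▸ one_mem Z)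
  have cm : ∀ a b, ∀ z ∈ Z, ∀ z' ∈ Z, (Commute (j a * z) (j b * z') ↔ Commute a b) :=
    fun a b z hz z' hz' => by
      have e1 := Subgroup.mem_center_iff.1 (h.zc hz)
      have e2 := Subgroup.mem_center_iff.1 (h.zc hz')
      rw [Commute, SemiconjBy, Commute, SemiconjBy, mul_assoc, ← mul_assoc z, ← e1, mul_assoc (j b) z,
        mul_assoc (j b) z', ← mul_assoc z', ← e2, mul_assoc (j a), ← e1 z', ← mul_assoc, ← mul_assoc (j b),
        ← map_mul, ← map_mul, mul_left_inj, hj.eq_iff]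
  have rz : ∀ a, ∀ z ∈ Z, r' (j a * z) = r' (j a) := fun a z hz => by
    rw [map_mul, one z (h.zr z hz).1, mul_one]
  have mN : ∀ {x}, x ∈ N.map j ⊔ Z ↔ ∃ n ∈ N, ∃ z ∈ Z, x = j n * z := fun {x} => by
    rw [Subgroup.mem_sup_of_normal_right]
    exact ⟨fun ⟨_, ⟨n, a, rfl⟩, z, b, e⟩ => ⟨n, a, z, b, e.symm⟩,
      fun ⟨n, a, z, b, e⟩ => ⟨_, ⟨n, a, rfl⟩, z, b, e.symm⟩⟩
  have key := d5 k L (I → L) S m hk hr hm h5 hV Γ r' s b1 b2 b3 (N.map j ⊔ Z)
    (d6 k L (I → L) S m inferInstance h5 hV Γ r' s b1 b2 b3 (fun n c1 c2 x c3 => ?_) _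
      (fun n hn => ?_) (fun x c1 n hn => ?_) ?_ fun w hw ⟨n, hn, c1, x, c2, c3, c4⟩ x' c5 c6 => ?_)
  · refine eq_top_iff.2 fun a _ => ?_
    obtain ⟨n, hn, z, hz, e⟩ := mN.1 (key (j a) (h.sj a))
    have := h.zj (n⁻¹ * a) (by rwa [map_mul, map_inv, e, inv_mul_cancel_left])
    rwa [← inv_mul_eq_one.1 this]
  · obtain ⟨a, z, hz, rfl⟩ := h.dec n c2
    obtain ⟨b, z', hz', rfl⟩ := h.dec x c3
    rw [rz a z hz] at c1
    refine (cm a b z hz z' hz').2 (Subgroup.mem_center_iff.1 (h.cen a ?_) b).symm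
    refine c1.imp (fun e => io_ext (g := g) (L := L) fun v => ?_) fun e =>
      io_ext (g := g) (L := L) fun v => ?_
    · rw [← hr', e, one_mulVec]
    · rw [← hr', e, io_neg, neg_mulVec, one_mulVec]
  · obtain ⟨a, -, z, hz, rfl⟩ := mN.1 hn
    rw [map_mul, h.sj, (h.zr z hz).2, mul_one]
  · obtain ⟨a, ha, z, hz, rfl⟩ := mN.1 hn
    obtain ⟨b, z', hz', rfl⟩ := h.dec x c1
    refine mN.2 ⟨_, hN.conj_mem a ha b, z, hz, ?_⟩
    have e1 := Subgroup.mem_center_iff.1 (h.zc hz)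
    have e2 := Subgroup.mem_center_iff.1 (h.zc hz')
    rw [map_mul, map_mul, map_inv]
    calc _ = j b * (z' * (j a * z)) * z'⁻¹ * (j b)⁻¹ := by group
      _ = j b * j a * (z * (j b)⁻¹) := by rw [← e2]; group
      _ = _ := by rw [← e1]; group
  · obtain ⟨a, ha, c1⟩ := SetLike.not_le_iff_exists.1 hZ
    obtain ⟨b, hb⟩ := not_forall.1 (mt Subgroup.mem_center_iff.2 c1)
    exact ⟨j a * 1, mN.2 ⟨a, ha, 1, one_mem Z, rfl⟩, j b * 1, by rw [mul_one, h.sj],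
      fun e => hb ((cm a b 1 (one_mem Z) 1 (one_mem Z)).1 e).symm⟩
  · obtain ⟨x0, y0, p1, p2, p3⟩ := pl w hw
    have sb : ∀ a, r' (j a) w = w → a ∈ Sb (r.comp j) x0 y0 := fun a e =>
      pair_eq p3 (f := (r (j a)).1.mulVecLin) (f' := LinearMap.id)
        ((hr' _ w).symm.trans (congrArg _ e)) ((hr' _ _).symm.trans (by rw [(b1 _).2, e]; rfl))
    obtain ⟨a, ha, z, hz, rfl⟩ := mN.1 hn
    obtain ⟨b, z', hz', rfl⟩ := h.dec x c2
    obtain ⟨b', z'', hz'', rfl⟩ := h.dec x' c5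
    rw [rz _ _ hz] at c1
    rw [rz _ _ hz'] at c3
    rw [rz _ _ hz''] at c6
    have e := h.dev x0 y0 p1 p2 (N.subgroupOf _) (hN.subgroupOf _) fun e => c4 ((cm a b z hz z' hz').2
      (congrArg Subtype.val (Subgroup.mem_center_iff.1 (e (x := ⟨a, sb a c1⟩) ha) ⟨b, sb b c3⟩)).symm)
    exact mN.2 ⟨b', (e.ge trivial : (⟨b', sb b' c6⟩ : Sb (r.comp j) x0 y0) ∈ N.subgroupOf _), z'', hz'',
      rfl⟩

end Vale.Agent.P011UV4
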