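import Vale.Agent.P011UV4.Main

/-!
The rational points of the stabiliser of a plane.
-/

set_option autoImplicit false
set_option linter.all false

namespace Vale.Agent.P011UV4

open Matrix Vale.Agent.P011L Vale.Agent.P011LZ Vale.Agent.P183CH Vale.Agent.P183CH.Chev
  Vale.Agent.P011U

/-- The rational points of a stable conjugate of the derived group of the Levi subgroup of type
`D n` form a projectively simple group. -/
def DO4P : Prop := DEV → AllG fun _ K _ _ _ D T => ∀ n e, Ty D.R (CartanMatrix.D (n + 1)) e →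
  4 ≤ n → Even n → ∀ y : D.grp K,
    (∀ σ, ∀ p ∈ LJ (GG D K) {j | j ≠ e.symm 0},
      y⁻¹ * T.a σ (y * p * y⁻¹) * y ∈ LJ (GG D K) {j | j ≠ e.symm 0}) →
    PSimple ((LJ (GG D K) {j | j ≠ e.symm 0}).comap
      ((MulAut.conj y).symm.toMonoidHom.comp T.fix.subtype))

theorem fix_equiv {k K : Type} [Field k] [Field K] [Algebra k K] {m n : Type} [Fintype n]
    [DecidableEq n] [Fintype m] [DecidableEq m] {H : Subgroup (GL n K)} {H' : Subgroup (GL m K)}
    {f : H' →* H} {T : Tw k H} {T' : Tw k H'} (hi : Function.Injective f)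
    (h : ∀ σ p, f (T'.a σ p) = T.a σ (f p)) {S : Subgroup T.fix} (hS : ∀ g, g ∈ S ↔ ∃ p, f p = g.1) :
    Nonempty (S ≃* T'.fix) := by
  let φ : T'.fix →* T.fix := (f.comp T'.fix.subtype).codRestrict _ fun p σ =>
    (h σ p).symm.trans (congrArg f (p.2 σ))
  refine ⟨(MulEquiv.ofBijective (φ.codRestrict S fun p => (hS _).2 ⟨p, rfl⟩) ⟨fun p q e =>
    Subtype.ext (hi (congrArg (fun x : S => x.1.1) e)), fun g => ?_⟩).symm⟩
  obtain ⟨p, hp⟩ := (hS _).1 g.2
  exact ⟨⟨p, fun σ => hi (by rw [h, hp, g.1.2 σ])⟩, Subtype.ext (Subtype.ext hp)⟩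

theorem do4p (nfx : NFX) (dg2 : DG2) : DO4P := by
  intro dev k K _ _ _ _ D hk hD T n e he hn h2 y hy
  haveI := Glob.inf hk
  haveI : Infinite K := .of_injective _ (algebraMap k K).injective
  let ι : Fin n ↪ Fin D.r :=
    ⟨fun i => e.symm i.succ, fun a b h => Fin.succ_injective _ (e.symm.injective h)⟩
  have hB : ∀ j i, D.A j (ι i) = CartanMatrix.D (n + 1) (e j) i.succ := fun j i =>
    (he j (ι i)).trans (congrArg _ (e.apply_symm_apply _))
  have hA : ∀ i j, D.A (ι i) (ι j) = CartanMatrix.D n i j := fun i j =>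
    (hB _ j).trans ((congrArg (CartanMatrix.D (n + 1) · j.succ) (e.apply_symm_apply _)).trans
      (d_succ hn i j))
  have hs := sub_simple (D := D) (ι := ι) (by omega) fun P i j hi h =>
    d_conn hn P i j hi fun i j a b => h i j a (hA j i ▸ b)
  have hr : Set.range ι = {j | j ≠ e.symm 0} := Set.ext fun j =>
    ⟨fun ⟨i, hi⟩ c => Fin.succ_ne_zero i (e.symm.injective (hi.trans c)), fun h => by
      obtain ⟨i, hi⟩ := Fin.exists_succ_eq.2 (show e j ≠ 0 from fun c =>
        h (e.eq_symm_apply.2 c))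
      exact ⟨i, e.symm_apply_eq.2 hi⟩⟩
  have hG := hr ▸ subD_grp hs K
  obtain ⟨f, T', hf, hT, hp⟩ := lj_tw T hy hG
  have hD' := subD_sc hs hD
  have he' : Ty (subD D ι hs).R (CartanMatrix.D n) (Equiv.refl _) := hA
  have ht : ¬Tri (D := subD D ι hs) T' := fun ⟨σ, g', c', π', a, b⟩ => by
    obtain ⟨e', -⟩ := dg2 _ (R_ok (subD D ι hs)) π' a.1 b
    obtain rfl : n = 4 := by
      have := Fintype.card_congr e'
      rwa [Fintype.card_fin, Fintype.card_fin] at this
    obtain ⟨g0, c0, π0, h5, -⟩ := nfx k K D hD T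
    have h6 := tri_par (D' := subD D ι hs) (ι := ι) (T' := T') (f := f) hD
      (fun i x => Subtype.ext (hf _)) hT (h5 σ) a (s := (2 : Fin 4)) (t := (3 : Fin 4)) fun j => by
        have : ∀ j, Even (CartanMatrix.D 5 j (2 : Fin 4).succ + CartanMatrix.D 5 j (3 : Fin 4).succ) := by
          decide
        exact (congrArg Even (congrArg₂ _ (hB j _) (hB j _))).mpr (this (e j))
    refine b (d4_sq π' fun j => ?_)
    obtain ⟨j, rfl⟩ := e.surjective j
    exact (congrArg Even (congrArg₂ _ (hB j _) (hB j _))).mp (h6 j)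
  obtain ⟨φ⟩ := fix_equiv (cj_inj hf) hT (S := (LJ (GG D K) {j | j ≠ e.symm 0}).comap
      ((MulAut.conj y).symm.toMonoidHom.comp T.fix.subtype)) fun g => ⟨hp g.1, fun ⟨p, h⟩ => by
    obtain ⟨q, hq, e⟩ := hG.le p.2
    have : y⁻¹ * g.1 * y = q := Subtype.ext (by
      rw [← h, Subgroup.coe_mul, Subgroup.coe_mul, hf, Subgroup.coe_inv, ← e]
      simp [mul_assoc])
    exact (congrArg (· ∈ _) this).mpr hq⟩
  exact P011LT.PSimple.congr φ (dev k K (subD D ι hs) hk hD' T' n _ he' hn h2 ht)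

end Vale.Agent.P011UV4
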