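import Vale.Agent.P011U.IF3

/-!
The stabiliser of a plane in type `D` of odd rank.
-/

set_option autoImplicit false
set_option linter.all false

namespace Vale.Agent.P011UV4

open Matrix Vale.Agent.P011L Vale.Agent.P011LZ Vale.Agent.P183CH Vale.Agent.P011U

/-- A stable conjugate of the derived group of the Levi subgroup of type `D n` has its rational
points in every noncentral normal subgroup. -/
def DO4 : Prop := DEV → AllG fun _ K _ _ _ D T => ∀ n e, Ty D.R (CartanMatrix.D (n + 1)) e →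
  4 ≤ n → Even n → ∀ y : D.grp K,
    (∀ σ, ∀ p ∈ LJ (GG D K) {j | j ≠ e.symm 0},
      y⁻¹ * T.a σ (y * p * y⁻¹) * y ∈ LJ (GG D K) {j | j ≠ e.symm 0}) →
    ∀ N : Subgroup T.fix, N.Normal → ¬N ≤ Subgroup.center T.fix →
      ∀ g : T.fix, y⁻¹ * g.1 * y ∈ LJ (GG D K) {j | j ≠ e.symm 0} → g ∈ N

end Vale.Agent.P011UV4
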