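import Vale.Agent.P011UCX.Kit
import Vale.Agent.P011UGC5.Lv
import Vale.Agent.P011UQ.Asm

/-!
Homomorphisms which belong to an embedding of diagrams; Tits cocycles.
-/

set_option autoImplicit false
set_option linter.all false

namespace Vale.Agent.P011UV4

open Matrix Vale.Agent.P011L Vale.Agent.P011LD Vale.Agent.P183CH Vale.Agent.P183CH.RG
  Vale.Agent.P011U Vale.Agent.P011UP Vale.Agent.P011UQ Vale.Agent.P011UGR1

section

variable {R R' : RS} {K G G' : Type} [Field K] [Group G] [Group G'] {Γ : RG R K G}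
  {Γ' : RG R' K G'} {ι : Fin R'.r → Fin R.r} {f : G' →* G}

variable (Γ Γ' ι f) in
/-- `f` belongs to the embedding `ι` of the diagrams -/
structure Em : Prop where
  inj : Function.Injective ι
  A : ∀ i j, R'.A i j = R.A (ι i) (ι j)
  e : ∀ i u, f (Γ'.x (R'.α i) u) = Γ.x (R.α (ι i)) u
  f : ∀ i u, f (Γ'.x (-R'.α i) u) = Γ.x (-R.α (ι i)) u

variable (ι) in
/-- the map of the root lattices -/
def xt (γ : R'.Q) : R.Q := ∑ i, γ i • R.α (ι i)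

theorem xt_α (i : Fin R'.r) : xt ι (R'.α i) = R.α (ι i) := by
  simp [xt, RS.α_apply]

theorem xt_nonneg {γ : R'.Q} (h : 0 ≤ γ) : 0 ≤ xt ι γ :=
  Finset.sum_nonneg fun i _ => smul_nonneg (h i) (RS.α_nonneg _)

theorem xt_In {J : Set (Fin R'.r)} {γ : R'.Q} (h : R'.In J γ) : R.In (ι '' J) (xt ι γ) :=
  fun j hj => by
  rw [xt, Finset.sum_apply]
  refine Finset.sum_eq_zero fun i _ => ?_
  by_cases e : i ∈ J
  · rw [Pi.smul_apply, RS.α_apply, if_neg fun c => hj ⟨i, e, c.symm⟩, smul_zero]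
  · rw [h i e, zero_smul, Pi.zero_apply]

namespace Em

variable (H : Em Γ Γ' ι f)
include H

theorem xt_s (i : Fin R'.r) (γ : R'.Q) : xt ι (R'.s i γ) = R.s (ι i) (xt ι γ) := by
  have e : R.pr (xt ι γ) (ι i) = R'.pr γ i := by
    rw [RS.pr, xt, sum_vecMul, Finset.sum_apply, RS.pr_eq]
    exact Finset.sum_congr rfl fun j _ => by
      rw [smul_vecMul, Pi.smul_apply, H.A, smul_eq_mul]
      exact congrArg _ (RS.pr_α R _ _)
  rw [RS.s, RS.s, e, ← xt_α (ι := ι)]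
  simp only [xt, Pi.sub_apply, Pi.smul_apply, sub_smul, Finset.sum_sub_distrib, Finset.smul_sum,
    smul_assoc]

theorem n (i : Fin R'.r) : f (Γ'.n i) = Γ.n (ι i) := by
  rw [RG.n, map_mul, map_mul, H.e, H.f, RG.n]

variable (hΓ : Γ.Ok) (hΓ' : Γ'.Ok)
include hΓ hΓ'

theorem h (i : Fin R'.r) (t : Kˣ) : f (Γ'.h i t) = Γ.h (ι i) t := by
  have := congrArg f (hΓ'.sl i t)
  rw [map_mul, map_mul, map_mul, H.e, H.f, H.n, hΓ.sl] at this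
  exact (mul_right_cancel this).symm

theorem hT (s : Fin R'.r → Kˣ) : ∃ t, (∀ i, t (ι i) = s i) ∧ f (hΓ'.hT s) = hΓ.hT t := by
  induction s using Pi.mulSingle_induction with
  | one => exact ⟨1, fun _ => rfl, by rw [map_one, map_one, map_one]⟩
  | mul a b ha hb =>
    obtain ⟨t, h1, h2⟩ := ha
    obtain ⟨u, h3, h4⟩ := hb
    exact ⟨t * u, fun i => by simp [h1, h3], by rw [map_mul, map_mul, map_mul, h2, h4]⟩
  | mulSingle i t =>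
    exact ⟨Pi.mulSingle (ι i) t, fun j => by simp [Pi.mulSingle_apply, H.inj.eq_iff],
      by rw [hΓ'.hT_single, hΓ.hT_single, H.h hΓ hΓ']⟩

variable (hR : R.Ok) (hR' : R'.Ok)
include hR hR'

theorem x : ∀ γ ∈ R'.Φ, xt ι γ ∈ R.Φ ∧ ∃ d : K, ∀ u, f (Γ'.x γ u) = Γ.x (xt ι γ) (d * u) := by
  refine rt_ind hR' (fun i => ?_) fun i γ hγ ⟨h1, d, h2⟩ => ?_
  · rw [xt_α]
    exact ⟨hR.simple _, 1, fun u => by rw [one_mul, H.e]⟩
  · obtain ⟨a, ha⟩ := hΓ'.nx i γ hγ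
    obtain ⟨b, hb⟩ := hΓ.nx (ι i) _ h1
    rw [H.xt_s]
    refine ⟨hR.refl _ _ h1, ((b : ℤ) : K) * d * ((a : ℤ) : K), fun u => ?_⟩
    have e : u = ((a : ℤ) : K) * (((a : ℤ) : K) * u) := by
      rw [← mul_assoc, ← Int.cast_mul, ← Units.val_mul, Int.units_mul_self]
      simp
    conv_lhs => rw [e, ← (ha _).1, map_mul, map_mul, map_inv, H.n, h2, (hb _).1]
    simp only [mul_assoc]

theorem X {S' : Set R'.Q} {S : Set R.Q} (h : ∀ γ ∈ S', xt ι γ ∈ S) : Γ'.X S' ≤ (Γ.X S).comap f :=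
  X_le fun γ h1 h2 a => by
    obtain ⟨h3, d, h4⟩ := H.x hΓ hΓ' hR hR' γ h2
    rw [Subgroup.mem_comap, h4]
    exact x_mem h3 (h γ h1) _

theorem PJ (J : Set (Fin R'.r)) : PJ Γ' J ≤ (PJ Γ (ι '' J)).comap f :=
  sup_le (sup_le ((H.X hΓ hΓ' hR hR' fun _ => xt_In).trans (Subgroup.comap_mono
    (le_sup_left.trans GJ_le_PJ))) ((Subgroup.closure_le _).2 (by
      rintro _ ⟨i, t, rfl⟩
      exact GJ_le_PJ (Subgroup.mem_sup_right (H.h hΓ hΓ' i t ▸ h_mem _ _)))))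
    ((H.X hΓ hΓ' hR hR' fun _ => xt_nonneg).trans (Subgroup.comap_mono U_le_PJ))

end Em

theorem PJ_mono {J J' : Set (Fin R.r)} (h : J ⊆ J') : PJ Γ J ≤ PJ Γ J' :=
  sup_le_sup_right (sup_le_sup_right (LJ_mono h) _) _

theorem std_cj {ψ : G ≃* G} {σ : K → K} {g : G} {c : Fin R.r → Kˣ} {π : Equiv.Perm (Fin R.r)}
    (h : Std Γ ψ σ g c π) (y : G) :
    Std Γ ((MulAut.conj y).trans (ψ.trans (MulAut.conj y).symm)) σ (y⁻¹ * ψ y * g) c π := by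
  refine ⟨h.1, fun i u => ⟨?_, ?_⟩⟩
  · show y⁻¹ * ψ (y * _ * y⁻¹) * y = _
    rw [map_mul, map_mul, map_inv, (h.2 i u).1]
    group
  · show y⁻¹ * ψ (y * _ * y⁻¹) * y = _
    rw [map_mul, map_mul, map_inv, (h.2 i u).2]
    group

/-- An inner standard automorphism fixes the factors of the Levi subgroup. -/
theorem std_LJ (hΓ : Γ.Ok) (hR : R.Ok) {ψ : G ≃* G} {σ : K →+* K} {a b : G} {c : Fin R.r → Kˣ}
    {J : Set (Fin R.r)} (h : Std Γ ψ σ (a * b) c 1) (ha : a ∈ LJ Γ J)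
    (hb : ∀ x ∈ LJ Γ J, Commute b x) {x : G} (hx : x ∈ LJ Γ J) : ψ x ∈ LJ Γ J := by
  have h1 : _ ∈ LJ Γ J := std_X hΓ h hR (S' := {γ | R.In J γ}) (fun γ e _ => e) hx
  have h2 := mul_mem (mul_mem ha h1) (inv_mem ha)
  rw [← (hb _ h1).mul_inv_cancel] at h2
  exact (congrArg (· ∈ _) (by group)).mp h2

end

section

variable {k K : Type} [Field k] [Field K] [Algebra k K] {D D' : Chev} {T : Tw k (D.grp K)}
  {T' : Tw k (D'.grp K)} {g : (K ≃ₐ[k] K) → D.grp K} {c : (K ≃ₐ[k] K) → Fin D.R.r → Kˣ}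

theorem tz_T (h : ∀ σ, Std (GG D K) (T.a σ) σ (g σ) (c σ) 1) (σ τ : K ≃ₐ[k] K) :
    ∃ z, tz T g σ τ = GG_ok.hT z ∧
      ∀ i, c (σ * τ) i = chi0 D.R K (D.R.α i) z * (c σ i * um σ (c τ i)) := by
  obtain ⟨-, z, h1, h2⟩ := std_uniq GG_ok (Chev.R_ok D) (Std.comp (ψ := (T.a σ).toMonoidHom)
    (σ := (σ : K →+* K)) (h σ) (h τ)) (g' := g (σ * τ)) (c' := c (σ * τ)) (π' := 1)
    (by have := h (σ * τ); rw [map_mul] at this; exact this) (by simp)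
  exact ⟨z, (mul_assoc _ _ _).trans h1, h2⟩

theorem tz_mul (h : ∀ σ, Std (GG D K) (T.a σ) σ (g σ) (c σ) 1) (t : (K ≃ₐ[k] K) → Fin D.R.r → Kˣ)
    {σ τ : K ≃ₐ[k] K} {z : Fin D.R.r → Kˣ} (hz : tz T g σ τ = GG_ok.hT z) :
    tz T (fun σ => g σ * GG_ok.hT (t σ)) σ τ =
      GG_ok.hT ((t (σ * τ))⁻¹ * (z * (fun j => um σ (t τ j)) * t σ)) := by
  have e : T.a σ _ = g σ * GG_ok.hT (fun j => um σ (t τ j)) * (g σ)⁻¹ :=
    P011UQ.std_hT GG_ok (ψ := (T.a σ).toMonoidHom) (σ := (σ : K →+* K)) (h σ) (t τ)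
  rw [map_mul, map_mul, map_mul, map_inv, ← hz, tz, tz, map_mul, e]
  group

/-- The Tits cocycle of a component of a Levi subgroup. -/
theorem lift_sub [Normal k K] (hD : SC D) {ι : Fin D'.R.r → Fin D.R.r} {f : D'.grp K →* D.grp K}
    (H : Em (GG D K) (GG D' K) ι f) {J : Set (Fin D.R.r)} (hJ : ∀ i, ι i ∉ J)
    {a : (K ≃ₐ[k] K) → D'.grp K} {b : (K ≃ₐ[k] K) → D.grp K} (hb : ∀ σ, b σ ∈ LJ (GG D K) J)
    (hc : ∀ p, ∀ x ∈ LJ (GG D K) J, Commute (f p) x) (hT : ∀ σ p, f (T'.a σ p) = T.a σ (f p))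
    (h : ∀ σ, Std (GG D K) (T.a σ) σ (f (a σ) * b σ) (c σ) 1)
    (h' : ∀ σ, Std (GG D' K) (T'.a σ) σ (a σ) (fun i => c σ (ι i)) 1) (h1 : Op ⊤ fun σ => a σ = 1)
    {t : (K ≃ₐ[k] K) → Fin D'.R.r → Kˣ} (h2 : Op ⊤ fun σ => t σ = 1)
    (h3 : ∀ σ τ z, tz T (fun σ => f (a σ) * b σ) σ τ = GG_ok.hT z →
      (∀ i, c (σ * τ) i = chi0 D.R K (D.R.α i) z * (c σ i * um σ (c τ i))) →
      ∀ i, z (ι i) * um σ (t τ i) * t σ i = t (σ * τ) i) : Lift T' := by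
  refine lift_of (fun σ => std_mul GG_ok (Chev.R_ok D') (h' σ) (t σ)) (fun σ τ => ?_)
    ((h1.and h2).imp fun σ _ e => by rw [e.1, e.2, map_one, mul_one])
  obtain ⟨z, a1, a2⟩ := tz_T h σ τ
  obtain ⟨z', a3, -⟩ := tz_T h' σ τ
  obtain ⟨u, a4, a5⟩ := H.hT GG_ok GG_ok z'
  have a6 : T.a σ (b τ) ∈ LJ (GG D K) J := std_LJ GG_ok (Chev.R_ok D) (σ := (σ : K →+* K))
    ((hc _ _ (hb σ)).eq ▸ h σ) (hb σ) (hc _) (hb τ)
  have a7 : GG_ok.hT (u⁻¹ * z) = (b (σ * τ))⁻¹ * T.a σ (b τ) * b σ := by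
    rw [map_mul, map_inv, ← a5, ← a3, ← a1, inv_mul_eq_iff_eq_mul, ← mul_assoc, ← mul_assoc,
      (hc _ _ (inv_mem (hb _))).eq, tz, tz, map_mul, map_mul, map_mul, map_inv, hT]
    calc _ = (b (σ * τ))⁻¹ * ((f (a (σ * τ)))⁻¹ * T.a σ (f (a τ))) * (T.a σ (b τ) * f (a σ)) *
          b σ := by group
      _ = _ := by rw [← (hc _ _ a6).eq]; group
  have a8 : ∀ i, z (ι i) = z' i := fun i => by
    have := of_TJ hD (P011UGC5.TJ_of GG_ok (Chev.R_ok D) (a7 ▸ mul_mem (mul_mem (inv_mem (hb _)) a6)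
      (hb σ)) (GG_ok.hT_mem _)) (hJ i)
    rw [Pi.mul_apply, Pi.inv_apply, a4, inv_mul_eq_one] at this
    exact this.symm
  rw [tz_mul h' t a3, show z' * (fun j => um σ (t τ j)) * t σ = t (σ * τ) from
    funext fun i => by rw [← h3 σ τ z a1 a2 i, a8]; rfl, inv_mul_cancel, map_one]

end

end Vale.Agent.P011UV4
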