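import Vale.Agent.P011UV4.Pl
import Vale.Agent.P011UO.Defs
import Vale.Agent.P011UD5.Kit

/-!
The dictionary between the rational isometries and the isometries which commute with `J`.
-/

set_option autoImplicit false
set_option linter.all false

namespace Vale.Agent.P011UV4

open Matrix Vale.Agent.P011L Vale.Agent.P011U Vale.Agent.P011LQ Vale.Agent.P011LD QuadraticMap
  Vale.Agent.P011UO Submodule

theorem pair_eq {K V W : Type} [Field K] [AddCommGroup V] [Module K V] [AddCommGroup W] [Module K W]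
    {x y a b : V} (e : span K {x, y} = span K {a, b}) {f f' : V →ₗ[K] W} (h : f a = f' a)
    (h' : f b = f' b) : f x = f' x ∧ f y = f' y := by
  have : span K {a, b} ≤ LinearMap.eqLocus f f' := span_le.2 (by
    rintro z (rfl | rfl)
    exacts [h, h'])
  exact ⟨this (e.le (subset_span (.inl rfl))), this (e.le (subset_span (.inr rfl)))⟩

variable {k K : Type} [Field k] [Field K] [Algebra k K] {I : Type} [Fintype I] [DecidableEq I]
  {Q : QuadraticForm K (I → K)} {A : (K ≃ₐ[k] K) → GL I K} {L : IntermediateField k K}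
  {S : QJ k L (I → L)} {g M : GL I K} {c : K}

theorem io_add (u v : I → L) : io g (u + v) = io g u + io g v := mulVec_add _ _ _

theorem io_sub (u v : I → L) : io g (u - v) = io g u - io g v := mulVec_sub _ _ _

theorem io_neg (u : I → L) : io g (-u) = -io g u := mulVec_neg _ _

theorem io_smul (t : L) (v : I → L) : io g (t • v) = (t : K) • io g v :=
  mulVec_smul g.1 (t : K) fun i => (v i : K)

theorem gl_inj (g : GL I K) : Function.Injective (g.1 *ᵥ ·) := fun u v h => by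
  simpa using congrArg ((g⁻¹).1 *ᵥ ·) h

theorem io_inj {u v : I → L} (h : io g u = io g v) : u = v :=
  funext fun i => Subtype.ext (congrFun (gl_inj g h) i)

variable (g L) in
theorem io_ind {P : (I → K) → Prop} (h : ∀ v : I → L, P (io g v))
    (ha : ∀ x y, P x → P y → P (x + y)) (hs : ∀ (t : K) x, P x → P (t • x)) (z : I → K) : P z := by
  obtain ⟨z, rfl⟩ : ∃ u, g.1 *ᵥ u = z := ⟨(g⁻¹).1 *ᵥ z, by simp⟩
  induction z using Pi.single_induction with
  | zero => simpa using hs 0 _ (h 0)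
  | add u v hu hv => exact mulVec_add g.1 u v ▸ ha _ _ hu hv
  | single i t =>
    have : g.1 *ᵥ Pi.single i t = t • io g (Pi.single i (1 : L)) := by
      rw [io, ← mulVec_smul]
      congr 1
      funext j
      by_cases e : j = i <;> simp [e]
    exact this ▸ hs _ _ (h _)

theorem io_ext {P P' : Matrix I I K} (h : ∀ v : I → L, P *ᵥ io g v = P' *ᵥ io g v) : P = P' :=
  Matrix.toLin'.injective (LinearMap.ext (io_ind L g h
    (fun x y a b => by rw [map_add, map_add, a, b]) fun t x a => by rw [map_smul, map_smul, a]))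

theorem sg_mv (σ : K ≃ₐ[k] K) (P : Matrix I I K) (x : I → K) : σ ∘ (P *ᵥ x) = P.map σ *ᵥ (σ ∘ x) :=
  funext fun i => RingHom.map_mulVec (σ : K →+* K) P x i

theorem sg_add (σ : K ≃ₐ[k] K) (x y : I → K) : σ ∘ (x + y) = σ ∘ x + σ ∘ y :=
  funext fun _ => map_add σ _ _

theorem sg_smul (σ : K ≃ₐ[k] K) (t : K) (x : I → K) : σ ∘ (t • x) = σ t • (σ ∘ x) :=
  funext fun _ => map_mul σ _ _

theorem a0_comm (hM : M.1 ∈ A0 A) (σ : K ≃ₐ[k] K) (x : I → K) :
    (A σ).1 *ᵥ (σ ∘ (M.1 *ᵥ x)) = M.1 *ᵥ ((A σ).1 *ᵥ (σ ∘ x)) := by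
  rw [sg_mv, mulVec_mulVec, hM σ, mulVec_mulVec]

variable (Q A S g c) in
/-- the result of the descent -/
structure Ds : Prop where
  ne : c ≠ 0
  q : ∀ v, Q (io g v) = c * S.q v
  act : ∀ σ, ∃ d : K, d ≠ 0 ∧ (((∀ x ∈ L, σ x = x) ∧ (A σ).1 * g.1.map σ = d • g.1) ∨
    ((∀ x : L, σ x = S.σ x) ∧ ∀ v, (A σ).1 *ᵥ (σ ∘ io g v) = d • io g (S.J v)))

theorem act_fix {σ : K ≃ₐ[k] K} {d : K} (h : ∀ x ∈ L, σ x = x) (e : (A σ).1 * g.1.map σ = d • g.1)
    (v : I → L) : (A σ).1 *ᵥ (σ ∘ io g v) = d • io g v := by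
  rw [io, sg_mv, mulVec_mulVec, e, smul_mulVec]
  exact congrArg (fun x => d • g.1 *ᵥ x) (funext fun i => h _ (v i).2)

namespace Ds

variable (H : Ds Q A S g c)
include H

theorem pol (u v : I → L) : polar Q (io g u) (io g v) = c * polar S.q u v := by
  simp only [polar, ← io_add, H.q]
  push_cast
  ring

theorem desc [IsGalois k K] (hM : M.1 ∈ A0 A) (v : I → L) :
    ∃ v' : I → L, io g v' = M.1 *ᵥ io g v := by
  have e : g.1 *ᵥ ((g⁻¹).1 *ᵥ (M.1 *ᵥ io g v)) = M.1 *ᵥ io g v := by simp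
  refine ⟨fun i => ⟨((g⁻¹).1 *ᵥ (M.1 *ᵥ io g v)) i, fixed_sub L fun σ hσ => ?_⟩, e⟩
  have hσ := (IntermediateField.mem_fixingSubgroup_iff L σ).1 hσ
  obtain ⟨d, h1, ⟨-, h2⟩ | ⟨h2, -⟩⟩ := H.act σ
  · have h3 := a0_comm hM σ (io g v)
    rw [act_fix hσ h2, mulVec_smul, ← e, sg_mv, mulVec_mulVec, h2, smul_mulVec] at h3
    exact congrFun (gl_inj g (smul_right_injective _ h1 h3)) i
  · exact absurd (AlgEquiv.ext fun x => Subtype.ext ((h2 x).symm.trans (hσ x x.2))) S.ne

theorem is_of [IsGalois k K] (hM : Ri Q A M) {u : (I → L) ≃ₗ[L] (I → L)}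
    (h : ∀ v, io g (u v) = M.1 *ᵥ io g v) : S.Is u := by
  refine ⟨fun v => Subtype.ext (mul_left_cancel₀ H.ne ?_), fun v => ?_⟩
  · rw [← H.q, ← H.q, h, hM.2]
  · have e : ∀ x : L, S.σ.liftNormal K x = S.σ x := fun x => S.σ.liftNormal_commutes K x
    obtain ⟨d, h1, ⟨h2, -⟩ | ⟨-, h2⟩⟩ := H.act (S.σ.liftNormal K)
    · exact absurd (AlgEquiv.ext fun x => Subtype.ext ((e x).symm.trans (h2 x x.2))) S.ne
    · refine io_inj (g := g) (smul_right_injective _ h1 ?_)
      show d • _ = d • _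
      rw [← h2, h, h, a0_comm hM.1, h2, mulVec_smul]

theorem exists_rep [IsGalois k K] {Γ : Type} [Group Γ] (r : Γ →* GL I K) (hr : ∀ x, Ri Q A (r x)) :
    ∃ r' : Γ →* ((I → L) ≃ₗ[L] (I → L)), ∀ x v, io g (r' x v) = (r x).1 *ᵥ io g v := by
  choose f hf using fun x => H.desc (hr x).1
  have e : ∀ x y v, f x (f y v) = f (x * y) v := fun x y v => io_inj (g := g) (by
    rw [hf, hf, hf, map_mul, mulVec_mulVec, Units.val_mul])
  have e1 : ∀ v, f 1 v = v := fun v => io_inj (g := g) (by rw [hf, map_one]; simp)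
  exact ⟨MonoidHom.mk' (fun x =>
    { toFun := f x
      invFun := f x⁻¹
      map_add' := fun u v => io_inj (g := g) (by rw [io_add, hf, hf, hf, io_add, mulVec_add])
      map_smul' := fun t v => io_inj (g := g) (by
        rw [RingHom.id_apply, io_smul, hf, hf, io_smul, mulVec_smul])
      left_inv := fun v => by rw [e, inv_mul_cancel, e1]
      right_inv := fun v => by rw [e, mul_inv_cancel, e1] })
    fun x y => LinearEquiv.ext fun v => (e x y v).symm, hf⟩

theorem ri_of {u : (I → L) ≃ₗ[L] (I → L)} (hu : S.Is u) :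
    ∃ M : GL I K, Ri Q A M ∧ ∀ v, io g (u v) = M.1 *ᵥ io g v := by
  have e : ∀ u : (I → L) →ₗ[L] (I → L), ∃ P : Matrix I I K, ∀ v, io g (u v) = P *ᵥ io g v :=
    fun u => ⟨g.1 * (LinearMap.toMatrix' u).map (algebraMap L K) * (g⁻¹).1, fun v => by
      rw [io, io, mulVec_mulVec, Units.inv_mul_cancel_right, ← mulVec_mulVec]
      refine congrArg _ (funext fun i => ?_)
      rw [← LinearMap.toMatrix'_mulVec]
      exact RingHom.map_mulVec (algebraMap L K) _ v i⟩
  obtain ⟨P, h⟩ := e u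
  obtain ⟨P', h'⟩ := e u.symm
  have h : ∀ v, io g (u v) = P *ᵥ io g v := h
  have h' : ∀ v, io g (u.symm v) = P' *ᵥ io g v := h'
  refine ⟨⟨P, P', io_ext (g := g) (L := L) fun v => ?_, io_ext (g := g) (L := L) fun v => ?_⟩,
    ⟨fun σ => ?_, ?_⟩, h⟩
  · rw [← mulVec_mulVec, ← h', ← h, u.apply_symm_apply, one_mulVec]
  · rw [← mulVec_mulVec, ← h, ← h', u.symm_apply_apply, one_mulVec]
  · have e1 : ∀ x, (A σ).1 *ᵥ (σ ∘ (P *ᵥ x)) = P *ᵥ ((A σ).1 *ᵥ (σ ∘ x)) := io_ind L g (fun v => by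
        obtain ⟨d, -, ⟨h1, h2⟩ | ⟨-, h2⟩⟩ := H.act σ
        · rw [← h, act_fix h1 h2, act_fix h1 h2, mulVec_smul, h]
        · rw [← h, h2, h2, mulVec_smul, ← h, hu.2])
      (fun x y a b => by simp only [mulVec_add, sg_add, a, b])
      fun t x a => by simp only [mulVec_smul, sg_smul, a]
    refine Matrix.toLin'.injective (LinearMap.ext fun x => ?_)
    have := e1 (σ.symm ∘ x)
    rw [sg_mv, mulVec_mulVec, mulVec_mulVec,
      show σ ∘ σ.symm ∘ x = x from funext fun i => σ.apply_symm_apply _] at this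
    exact this
  · have e1 : ∀ v : I → L, Q (P *ᵥ io g v) = Q (io g v) := fun v => by rw [← h, H.q, H.q, hu.1]
    have e2 : ∀ x y, polar Q (P *ᵥ x) (P *ᵥ y) = polar Q x y := io_ind L g (fun v => io_ind L g
        (fun w => by simp only [polar, ← mulVec_add, ← io_add, e1])
        (fun x y a b => by rw [mulVec_add, polar_add_right, polar_add_right, a, b])
        fun t x a => by rw [mulVec_smul, polar_smul_right, polar_smul_right, a])
      (fun x y a b z => by rw [mulVec_add, polar_add_left, polar_add_left, a, b])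
      fun t x a z => by rw [mulVec_smul, polar_smul_left, polar_smul_left, a]
    exact io_ind L g e1 (fun x y a b => by
      show Q (P *ᵥ _) = _
      rw [mulVec_add, QuadraticMap.map_add Q, QuadraticMap.map_add Q, e2]
      exact congrArg (· + _) (congrArg₂ _ a b)) fun t x a => by
        show Q (P *ᵥ _) = _
        rw [mulVec_smul, Q.map_smul, Q.map_smul]
        exact congrArg _ a

/-- The plane of a vector with nonzero discriminant. -/
theorem plane [IsSepClosed K] {l : (K ≃ₐ[k] K) → K} (hl : ∀ σ, l σ ≠ 0)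
    (hs : ∀ σ v, Q ((A σ).1 *ᵥ (σ ∘ v)) = l σ * σ (Q v)) {w : I → L} (hw : S.dl w ≠ 0) :
    ∃ x y, Hp Q x y ∧ St A x y ∧ span K {x, y} = span K {io g w, io g (S.J w)} := by
  obtain ⟨x, y, h, e⟩ := ex_hp (Q := Q) (a := io g w) (b := io g (S.J w)) fun e => hw (by
    rw [H.pol, H.q, H.q] at e
    refine Subtype.ext (mul_left_cancel₀ (pow_ne_zero 2 H.ne) ?_)
    have e4 : ((4 : L) : K) = 4 := map_ofNat (algebraMap L K) 4
    rw [QJ.dl]
    push_cast
    rw [e4]
    linear_combination e)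
  refine ⟨x, y, h, fun σ => ?_, e⟩
  have h1 : ∀ p ∈ span K {x, y}, (A σ).1 *ᵥ (σ ∘ p) ∈ span K {x, y} := fun p hp => by
    rw [e] at hp ⊢
    obtain ⟨s, t, rfl⟩ := mem_span_pair.1 hp
    have ha : io g w ∈ span K {io g w, io g (S.J w)} := subset_span (.inl rfl)
    have hb : io g (S.J w) ∈ span K {io g w, io g (S.J w)} := subset_span (.inr rfl)
    rw [sg_add, sg_smul, sg_smul, mulVec_add, mulVec_smul, mulVec_smul]
    obtain ⟨d, -, ⟨h1, h2⟩ | ⟨-, h2⟩⟩ := H.act σ
    · rw [act_fix h1 h2, act_fix h1 h2]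
      exact add_mem (smul_mem _ _ (smul_mem _ _ ha)) (smul_mem _ _ (smul_mem _ _ hb))
    · rw [h2, h2, S.sq, io_smul]
      exact add_mem (smul_mem _ _ (smul_mem _ _ hb)) (smul_mem _ _ (smul_mem _ _ (smul_mem _ _ ha)))
  refine two_lines h (h1 x (subset_span (.inl rfl))) (h1 y (subset_span (.inr rfl)))
    (by rw [hs, h.1, map_zero, mul_zero]) (by rw [hs, h.2.1, map_zero, mul_zero]) ?_
  have h2 : Q (x + y) = 1 := by rw [QuadraticMap.map_add Q, h.1, h.2.1, h.2.2]; simp
  rw [polar, ← mulVec_add, ← sg_add, hs, hs, hs, h.1, h.2.1, h2]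
  simpa using hl σ

end Ds

end Vale.Agent.P011UV4
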