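import Vale.Agent.P011UV4.Tri
import Vale.Agent.P011UV4.Defs

/-!
The stabiliser of a plane lies in every noncentral normal subgroup.
-/

set_option autoImplicit false
set_option linter.all false

namespace Vale.Agent.P011UV4

open Matrix Vale.Agent.P011L Vale.Agent.P011LZ Vale.Agent.P183CH Vale.Agent.P183CH.Chev
  Vale.Agent.P011U

/-- The action on a stable conjugate of the derived group of a Levi subgroup. -/
theorem lj_tw {D : Chev} {k K : Type} [Field k] [Field K] [Algebra k K] [Algebra.IsAlgebraic k K]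
    (T : Tw k (D.grp K)) {y : D.grp K} {S : Subgroup (D.grp K)}
    (hy : ∀ σ, ∀ p ∈ S, y⁻¹ * T.a σ (y * p * y⁻¹) * y ∈ S) {H : Subgroup (GL (Fin D.n) K)}
    (hH : H = S.map (D.grp K).subtype) : ∃ (f : H →* D.grp K) (T' : Tw k H),
      (∀ p, (f p).1 = y.1 * p.1 * y.1⁻¹) ∧ (∀ σ p, f (T'.a σ p) = T.a σ (f p)) ∧
      ∀ g, y⁻¹ * g * y ∈ S → ∃ p, f p = g := by
  subst hH
  let f := (MulAut.conj y).toMonoidHom.comp (Subgroup.inclusion (Subgroup.map_subtype_le S))
  have h1 : ∀ g, y⁻¹ * g * y ∈ S → ∃ p, f p = g := fun g hg =>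
    ⟨⟨_, _, hg, rfl⟩, show y * (y⁻¹ * g * y) * y⁻¹ = g by group⟩
  obtain ⟨T', h⟩ := tw_sub (y := y.1) (f := f) T (fun _ => rfl) fun σ ⟨_, p, hp, rfl⟩ =>
    h1 _ (hy σ p hp)
  exact ⟨f, T', fun _ => rfl, h, h1⟩

theorem do4 (nfx : NFX) (dg2 : DG2) (nta : NTA) (ex2 : EX2) (tor : TOR) (nc : NC) (ox : OPX)
    (ea : EQA) (opi : OPI) : DO4 := by
  intro dev k K _ _ _ _ D hk hD T n e he hn h2 y hy N h3 h4 g hg
  haveI := Glob.inf hk
  haveI : Infinite K := .of_injective _ (algebraMap k K).injective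
  let ι : Fin n ↪ Fin D.r :=
    ⟨fun i => e.symm i.succ, fun a b h => Fin.succ_injective _ (e.symm.injective h)⟩
  have hB : ∀ j i, D.A j (ι i) = CartanMatrix.D (n + 1) (e j) i.succ := fun j i =>
    (he j (ι i)).trans (congrArg _ (e.apply_symm_apply _))
  have hA : ∀ i j, D.A (ι i) (ι j) = CartanMatrix.D n i j := fun i j =>
    (hB _ j).trans ((congrArg (CartanMatrix.D (n + 1) · j.succ) (e.apply_symm_apply _)).trans
      (d_succ hn i j))
  have hs := sub_simple (D := D) (ι := ι) (by omega) fun P i j hi h =>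
    d_conn hn P i j hi fun i j a b => h i j a (hA j i ▸ b)
  have hr : Set.range ι = {j | j ≠ e.symm 0} := Set.ext fun j =>
    ⟨fun ⟨i, hi⟩ c => Fin.succ_ne_zero i (e.symm.injective (hi.trans c)), fun h => by
      obtain ⟨i, hi⟩ := Fin.exists_succ_eq.2 (show e j ≠ 0 from fun c =>
        h (e.eq_symm_apply.2 c))
      exact ⟨i, e.symm_apply_eq.2 hi⟩⟩
  obtain ⟨f, T', hf, hT, hp⟩ := lj_tw T hy (hr ▸ subD_grp hs K)
  have hD' := subD_sc hs hD
  have he' : Ty (subD D ι hs).R (CartanMatrix.D n) (Equiv.refl _) := hA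
  have hA' : ¬TyA (subD D ι hs).R := fun c => (nta _ c).1 n _ hn he'
  have ht : ¬Tri (D := subD D ι hs) T' := fun ⟨σ, g', c', π', a, b⟩ => by
    obtain ⟨e', -⟩ := dg2 _ (R_ok (subD D ι hs)) π' a.1 b
    obtain rfl : n = 4 := by
      have := Fintype.card_congr e'
      rwa [Fintype.card_fin, Fintype.card_fin] at this
    obtain ⟨g0, c0, π0, h5, -⟩ := nfx k K D hD T
    have h6 := tri_par (D' := subD D ι hs) (ι := ι) (T' := T') (f := f) hD
      (fun i x => Subtype.ext (hf _)) hT (h5 σ) a (s := (2 : Fin 4)) (t := (3 : Fin 4)) fun j => by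
        have : ∀ j, Even (CartanMatrix.D 5 j (2 : Fin 4).succ + CartanMatrix.D 5 j (3 : Fin 4).succ) := by
          decide
        exact (congrArg Even (congrArg₂ _ (hB j _) (hB j _))).mpr (this (e j))
    refine b (d4_sq π' fun j => ?_)
    obtain ⟨j, rfl⟩ := e.surjective j
    exact (congrArg Even (congrArg₂ _ (hB j _) (hB j _))).mp (h6 j)
  have hq : Tors T.fix := by
    refine tor k K D hk hD T (fun c => (nta _ c).1 (n + 1) e (by omega) he) ?_
    refine or_iff_not_imp_left.2 fun nf an => ?_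
    obtain ⟨T'', ε, π, c, a, b⟩ := ox k K (subD D ι hs) hk hD' T' hA'
      (.inl (ex2 _ (.inr (.inr (.inl ⟨n, _, hn, h2, he'⟩)))))
    exact opi k K _ hk hD' T'' nf hA' ε π c b (ea k K _ hD' T' T'' a (ani_sub hf hT an))
  obtain ⟨p, hp⟩ := hp g.1 hg
  exact mem_of (cj_inj hf) hT hq (dev k K (subD D ι hs) hk hD' T' n _ he' hn h2 ht)
    (nc k K (subD D ι hs) hk hD' T') N h3 h4 g p hp

end Vale.Agent.P011UV4
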