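import Mathlib.LinearAlgebra.QuadraticForm.Basic
import Mathlib.FieldTheory.IsSepClosed

/-!
Hyperbolic planes.
-/

set_option autoImplicit false
set_option linter.all false

namespace Vale.Agent.P011UV4

open QuadraticMap Submodule

variable {K V : Type} [Field K] [AddCommGroup V] [Module K V] {Q : QuadraticForm K V} {x y : V}

theorem quad_root [IsSepClosed K] {a b c : K} (ha : a ≠ 0) (h : b ^ 2 - 4 * a * c ≠ 0) :
    ∃ t, a * t ^ 2 + b * t + c = 0 := by
  by_cases e : (2 : K) = 0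
  · refine IsSepClosed.exists_root_C_mul_X_pow_add_C_mul_X_add_C a b c (by exact_mod_cast e) le_rfl
      fun hb => h ?_
    rw [hb]
    linear_combination (-2 * a * c) * e
  · haveI : NeZero (2 : K) := ⟨e⟩
    obtain ⟨z, hz⟩ := IsSepClosed.exists_eq_mul_self (b ^ 2 - 4 * a * c)
    refine ⟨(z - b) / (2 * a), ?_⟩
    field_simp
    linear_combination -hz

theorem q_comb (a b : V) (s t : K) :
    Q (s • a + t • b) = s ^ 2 * Q a + s * t * polar Q a b + t ^ 2 * Q b := by
  rw [QuadraticMap.map_add Q, Q.map_smul, Q.map_smul, polar_smul_left, polar_smul_right]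
  simp only [smul_eq_mul]
  ring

theorem p_self (a : V) : polar Q a a = 2 * Q a := by rw [polar_self, two_smul, two_mul]

theorem p_comb (z a b : V) (s t : K) :
    polar Q z (s • a + t • b) = s * polar Q z a + t * polar Q z b := by
  rw [polar_add_right, polar_smul_right, polar_smul_right, smul_eq_mul, smul_eq_mul]

theorem ex_hp0 {a b : V} (ha : Q a = 0) (h : polar Q a b ≠ 0) :
    ∃ y, (Q a = 0 ∧ Q y = 0 ∧ polar Q a y = 1) ∧ span K {a, y} = span K {a, b} := by
  refine ⟨(-(Q b / polar Q a b ^ 2)) • a + (polar Q a b)⁻¹ • b, ⟨ha, ?_, ?_⟩,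
    le_antisymm (span_le.2 ?_) (span_le.2 ?_)⟩
  · rw [q_comb, ha]
    field_simp
    ring
  · rw [p_comb, p_self, ha]
    field_simp
    ring
  · rintro _ (rfl | rfl)
    · exact subset_span (.inl rfl)
    · exact mem_span_pair.2 ⟨_, _, rfl⟩
  · rintro z (e | e)
    · exact subset_span (.inl e)
    · refine mem_span_pair.2 ⟨Q b / polar Q a b, polar Q a b, Eq.trans ?_ e.symm⟩
      match_scalars <;> field_simp <;> ring

/-- A nondegenerate plane is hyperbolic. -/
theorem ex_hp [IsSepClosed K] {a b : V} (h : polar Q a b ^ 2 - 4 * Q a * Q b ≠ 0) :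
    ∃ x y, (Q x = 0 ∧ Q y = 0 ∧ polar Q x y = 1) ∧ span K {x, y} = span K {a, b} := by
  by_cases ha : Q a = 0
  · exact ⟨a, ex_hp0 ha fun e => h (by rw [e, ha]; ring)⟩
  obtain ⟨t, ht⟩ := quad_root ha h
  obtain ⟨y, h1, h2⟩ := ex_hp0 (Q := Q) (a := t • a + (1 : K) • b) (b := a)
    (by rw [q_comb]; linear_combination ht) fun e => h (by
      rw [polar_comm, p_comb, p_self] at e
      linear_combination (2 * t * Q a + polar Q a b) * e - 4 * Q a * ht)
  refine ⟨_, y, h1, h2.trans (le_antisymm (span_le.2 ?_) (span_le.2 ?_))⟩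
  · rintro _ (rfl | rfl)
    · exact mem_span_pair.2 ⟨_, _, rfl⟩
    · exact subset_span (.inl rfl)
  · rintro _ (rfl | rfl)
    · exact subset_span (.inr rfl)
    · exact mem_span_pair.2 ⟨1, -t, by module⟩

variable (h : Q x = 0 ∧ Q y = 0 ∧ polar Q x y = 1)
include h

theorem q_hp (s t : K) : Q (s • x + t • y) = s * t := by
  rw [q_comb, h.1, h.2.1, h.2.2]
  ring

theorem px (s t : K) : polar Q x (s • x + t • y) = t := by
  rw [p_comb, p_self, h.1, h.2.2]
  ring

theorem py (s t : K) : polar Q y (s • x + t • y) = s := by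
  rw [p_comb, p_self, h.2.1, polar_comm, h.2.2]
  ring

/-- The isotropic lines of a hyperbolic plane. -/
theorem two_lines {p p' : V} (h1 : p ∈ span K {x, y}) (h2 : p' ∈ span K {x, y}) (h3 : Q p = 0)
    (h4 : Q p' = 0) (h5 : polar Q p p' ≠ 0) : ((∃ c : K, p = c • x) ∧ ∃ c : K, p' = c • y) ∨
      ((∃ c : K, p = c • y) ∧ ∃ c : K, p' = c • x) := by
  obtain ⟨a, b, rfl⟩ := mem_span_pair.1 h1
  obtain ⟨a', b', rfl⟩ := mem_span_pair.1 h2
  rw [q_hp h] at h3 h4
  rw [polar_add_left, polar_smul_left, polar_smul_left, px h, py h, smul_eq_mul, smul_eq_mul] at h5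
  rcases mul_eq_zero.1 h3 with rfl | rfl <;> rcases mul_eq_zero.1 h4 with rfl | rfl
  · simp at h5
  · exact .inr ⟨⟨b, by simp⟩, a', by simp⟩
  · exact .inl ⟨⟨a, by simp⟩, b', by simp⟩
  · simp at h5

theorem zero_of {p : V} (h1 : p ∈ span K {x, y}) (h2 : polar Q x p = 0) (h3 : polar Q y p = 0) :
    p = 0 := by
  obtain ⟨a, b, rfl⟩ := mem_span_pair.1 h1
  rw [px h] at h2
  rw [py h] at h3
  simp [h2, h3]

theorem in_plane (nd : ∀ v, (∀ w, polar Q v w = 0) → v = 0) {v : V}
    (hv : ∀ z, polar Q x z = 0 → polar Q y z = 0 → polar Q v z = 0) : v ∈ span K {x, y} := by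
  have e : ∀ z, polar Q x (z - (polar Q y z • x + polar Q x z • y)) = 0 ∧
      polar Q y (z - (polar Q y z • x + polar Q x z • y)) = 0 := fun z => by
    rw [polar_sub_right, polar_sub_right, px h, py h, sub_self, sub_self]
    exact ⟨rfl, rfl⟩
  refine mem_span_pair.2 ⟨polar Q y v, polar Q x v, (sub_eq_zero.1 (nd _ fun z => ?_)).symm⟩
  have h1 := hv _ (e z).1 (e z).2
  rw [polar_sub_right, p_comb, polar_comm _ v x, polar_comm _ v y] at h1
  rw [polar_sub_left, polar_comm _ (_ + _), p_comb, polar_comm _ z x, polar_comm _ z y]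
  linear_combination h1

/-- An isometry which is trivial on the orthogonal complement of a hyperbolic plane. -/
theorem rot_of (nd : ∀ v, (∀ w, polar Q v w = 0) → v = 0) {M : V →ₗ[K] V} (h1 : ∀ v, Q (M v) = Q v)
    (h2 : ∀ z, polar Q x z = 0 → polar Q y z = 0 → M z = z) {t : K}
    (h3 : polar Q x (M (M x) + x - t • M x) = 0 ∧ polar Q y (M (M x) + x - t • M x) = 0)
    (h4 : 2 + t ≠ 0) :
    ∃ c : Kˣ, M x = (c : K) • x ∧ M y = ((c⁻¹ : Kˣ) : K) • y ∧ 2 + t = 2 + c + (c⁻¹ : Kˣ) := by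
  have e : ∀ u v, polar Q (M u) (M v) = polar Q u v := fun u v => by
    simp only [polar, ← map_add, h1]
  have e1 := e x y
  have hx : polar Q x x = 0 := by rw [p_self, h.1, mul_zero]
  have hy : polar Q y y = 0 := by rw [p_self, h.2.1, mul_zero]
  have hz : polar Q y x = 1 := by rw [polar_comm, h.2.2]
  rcases two_lines h (in_plane h nd fun z a b => by rw [← h2 z a b, e, a])
    (in_plane h nd fun z a b => by rw [← h2 z a b, e, b]) ((h1 x).trans h.1) ((h1 y).trans h.2.1)
    (by rw [e1, h.2.2]; exact one_ne_zero) with ⟨⟨c, a⟩, d, b⟩ | ⟨⟨c, a⟩, d, b⟩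
  · have e2 : c * d = 1 := by simpa [a, b, h.2.2, mul_comm] using e1
    have e3 : c * c + 1 - t * c = 0 := by simpa [a, hz] using h3.2
    exact ⟨⟨c, d, e2, (mul_comm d c).trans e2⟩, a, b, by
      show 2 + t = 2 + c + d
      linear_combination -d * e3 + (c - t) * e2⟩
  · have e2 : c * d = 1 := by simpa [a, b, h.2.2, hz, mul_comm] using e1
    have e3 : -(t * c) = 0 := by simpa [a, b, hx, h.2.2] using h3.1
    have e4 : c * d + 1 = 0 := by simpa [a, b, hy, hz] using h3.2
    exact absurd (by linear_combination e4 - d * e3 - (1 + t) * e2) h4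

end Vale.Agent.P011UV4
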