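import Vale.Agent.P011UV4.Tw
import Vale.Agent.P011US.Sub
import Vale.Agent.P011UB.Root

/-!
The action on the diagram of a stable subsystem subgroup respects the characters of order two of
the weight lattice modulo the root lattice.
-/

set_option autoImplicit false
set_option linter.all false

namespace Vale.Agent.P011UV4

open Matrix Vale.Agent.P011L Vale.Agent.P183CH Vale.Agent.P183CH.Chev Vale.Agent.P011U

variable {D : Chev} {k K : Type} [Field k] [Field K] [Algebra k K]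

theorem ex_sp {E : ℕ → D.Mat ℤ} (h : DP E) {γ : D.Q} (hd : E 1 ∈ D.Dg ℤ γ) (t : K) :
    ex E t ∈ Sp K fun a b => ∃ γ : D.Q, D.wt a = D.wt b + γ ᵥ* D.A :=
  sum_mem fun m _ => Submodule.smul_mem _ _ (Sp.mono (DP_dg h hd m) fun _ _ e => ⟨_, e⟩)

theorem grp_sp (g : D.grp K) : g.1.1 ∈ Sp K fun a b => ∃ γ : D.Q, D.wt a = D.wt b + γ ᵥ* D.A := by
  obtain ⟨g, hg⟩ := g
  induction hg using Subgroup.closure_induction'' with
  | one => exact Sp.one fun a => ⟨0, by simp⟩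
  | mem g hg =>
    obtain ⟨i, t, h | h⟩ := hg
    · obtain rfl : g = (dp_e i).exU t := Units.ext h
      exact ex_sp (dp_e i) (dg_e i) t
    · obtain rfl : g = (dp_f i).exU t := Units.ext h
      exact ex_sp (dp_f i) (dg_f i) t
  | inv_mem g hg =>
    obtain ⟨i, t, h | h⟩ := hg
    · obtain rfl : g = (dp_e i).exU t := Units.ext h
      exact ex_sp (dp_e i) (dg_e i) (-t)
    · obtain rfl : g = (dp_f i).exU t := Units.ext h
      exact ex_sp (dp_f i) (dg_f i) (-t)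
  | mul g g' _ _ h h' =>
    exact Sp.mul h h' fun a b c ⟨γ, e⟩ ⟨δ, e'⟩ => ⟨γ + δ, by rw [e, e', add_vecMul]; abel⟩

theorem mu_eq [Infinite K] {G : D.grp K} {s u : Fin D.r}
    (h : ∀ x, G * (GG D K).h s x * G⁻¹ = (GG D K).h u x) {a b : Fin D.n} (e : G.1.1 a b ≠ 0) :
    D.μ u a = D.μ s b := P011UB.zpow_inj (k := K) fun x => by
  have h1 : G.1.1 * diagonal (fun a => ((x ^ D.μ s a : Kˣ) : K)) =
      diagonal (fun a => ((x ^ D.μ u a : Kˣ) : K)) * G.1.1 :=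
    congrArg (fun g : D.grp K => g.1.1) (mul_inv_eq_iff_eq_mul.1 (h x))
  have h2 := congrFun (congrFun h1 a) b
  rw [mul_diagonal, diagonal_mul, mul_comm] at h2
  exact Units.ext (mul_right_cancel₀ e h2).symm

theorem par_of [Infinite K] (hD : SC D) {G : D.grp K} {s t u v : Fin D.r}
    (h1 : ∀ x, G * (GG D K).h s x * G⁻¹ = (GG D K).h u x)
    (h2 : ∀ x, G * (GG D K).h t x * G⁻¹ = (GG D K).h v x)
    (h : ∀ j, Even (D.A j s + D.A j t)) (j : Fin D.r) : Even (D.A j u + D.A j v) := by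
  have h3 : ∀ w ∈ Submodule.span ℤ (Set.range fun (a : Fin D.n) (i : Fin D.r) => D.μ i a),
      Even (w u + w v - (w s + w t)) := fun w hw => by
    induction hw using Submodule.span_induction with
    | zero => simp
    | add a b _ _ ha hb =>
      obtain ⟨x, hx⟩ := ha
      obtain ⟨y, hy⟩ := hb
      exact ⟨x + y, by simp only [Pi.add_apply]; omega⟩
    | smul c a _ ha =>
      obtain ⟨x, hx⟩ := ha
      exact ⟨c * x, by simp only [Pi.smul_apply, smul_eq_mul]; linear_combination c * hx⟩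
    | mem w hw =>
      obtain ⟨a, rfl⟩ := hw
      obtain ⟨b, hb⟩ : ∃ b, G.1.1 a b ≠ 0 := by
        by_contra! c
        have := congrFun (congrFun G.1.val_inv a) a
        simp [mul_apply, c] at this
      obtain ⟨γ, e⟩ := grp_sp G a b hb
      have e1 : D.μ s a = D.μ s b + ∑ i, γ i * D.A i s := congrFun e s
      have e2 : D.μ t a = D.μ t b + ∑ i, γ i * D.A i t := congrFun e t
      obtain ⟨x, hx⟩ : Even (∑ i, γ i * D.A i s + ∑ i, γ i * D.A i t) := by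
        rw [← Finset.sum_add_distrib]
        exact Finset.even_sum _ fun i _ => mul_add (γ i) _ _ ▸ (h i).mul_left _
      refine ⟨-x, ?_⟩
      show D.μ u a + D.μ v a - (D.μ s a + D.μ t a) = _
      rw [mu_eq h1 hb, mu_eq h2 hb]
      omega
  obtain ⟨x, hx⟩ := h3 (D.A j) (hD.ge trivial)
  obtain ⟨y, hy⟩ := h j
  exact ⟨x + y, by omega⟩

theorem tri_par [Infinite K] (hD : SC D) {D' : Chev} {ι : Fin D'.r → Fin D.r} {T : Tw k (D.grp K)}
    {T' : Tw k (D'.grp K)} {y : D.grp K} {f : D'.grp K →* D.grp K}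
    (e : ∀ i x, f ((GG D' K).h i x) = y * (GG D K).h (ι i) x * y⁻¹)
    (h : ∀ σ p, f (T'.a σ p) = T.a σ (f p)) {σ : K ≃ₐ[k] K} {g : D.grp K} {c : Fin D.r → Kˣ}
    {π : Equiv.Perm (Fin D.r)} {g' : D'.grp K} {c' : Fin D'.r → Kˣ} {π' : Equiv.Perm (Fin D'.r)}
    (h1 : Std (GG D K) (T.a σ) σ g c π) (h2 : Std (GG D' K) (T'.a σ) σ g' c' π')
    {s t : Fin D'.r} (he : ∀ j, Even (D.A j (ι s) + D.A j (ι t))) (j : Fin D.r) :
    Even (D.A j (ι (π' s)) + D.A j (ι (π' t))) := by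
  have h3 : ∀ i x, (f g' * y)⁻¹ * (T.a σ y * g) * (GG D K).h (π (ι i)) x *
      ((f g' * y)⁻¹ * (T.a σ y * g))⁻¹ = (GG D K).h (ι (π' i)) x := fun i x => by
    obtain ⟨x, rfl⟩ : ∃ z, P011UQ.um σ z = x :=
      ⟨P011UQ.um σ.symm x, Units.ext (σ.apply_symm_apply _)⟩
    have h4 : T.a σ _ = g * (GG D K).h (π (ι i)) (P011UQ.um σ x) * g⁻¹ :=
      P011UQ.std_h GG_ok (ψ := (T.a σ).toMonoidHom) (σ := (σ : K →+* K)) h1 (ι i) x
    have h5 : T'.a σ _ = g' * (GG D' K).h (π' i) (P011UQ.um σ x) * g'⁻¹ :=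
      P011UQ.std_h GG_ok (ψ := (T'.a σ).toMonoidHom) (σ := (σ : K →+* K)) h2 i x
    have h6 := h σ ((GG D' K).h i x)
    rw [h5, e, map_mul, map_mul, map_mul, map_mul, e, h4, map_inv, map_inv] at h6
    calc _ = (f g' * y)⁻¹ * (T.a σ y * (g * (GG D K).h (π (ι i)) (P011UQ.um σ x) * g⁻¹) *
          (T.a σ y)⁻¹) * (f g' * y) := by group
      _ = _ := by rw [← h6]; group
  refine par_of hD (h3 s) (h3 t) (fun j => ?_) j
  obtain ⟨j, rfl⟩ := π.surjective j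
  have e1 : D.A (π j) (π (ι s)) = D.A j (ι s) := h1.1 j (ι s)
  have e2 : D.A (π j) (π (ι t)) = D.A j (ι t) := h1.1 j (ι t)
  rw [e1, e2]
  exact he j

theorem d4_sq (p : Equiv.Perm (Fin 4))
    (h : ∀ j, Even (CartanMatrix.D 5 j (p 2).succ + CartanMatrix.D 5 j (p 3).succ)) : p * p = 1 := by
  have k : ∀ a b c d : Fin 4, a ≠ b → a ≠ c → a ≠ d → b ≠ c → b ≠ d → c ≠ d →
      (∀ j, Even (CartanMatrix.D 5 j c.succ + CartanMatrix.D 5 j d.succ)) →
      ((a = 0 ∧ b = 1) ∨ (a = 1 ∧ b = 0)) ∧ ((c = 2 ∧ d = 3) ∨ (c = 3 ∧ d = 2)) := by decide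
  have n := fun (a b : Fin 4) (e : a ≠ b) => p.injective.ne e
  obtain ⟨h1, h2⟩ := k (p 0) (p 1) (p 2) (p 3) (n _ _ (by decide)) (n _ _ (by decide))
    (n _ _ (by decide)) (n _ _ (by decide)) (n _ _ (by decide)) (n _ _ (by decide)) h
  ext i
  fin_cases i
  · rcases h1 with ⟨a, b⟩ | ⟨a, b⟩ <;> simp [a, b]
  · rcases h1 with ⟨a, b⟩ | ⟨a, b⟩ <;> simp [a, b]
  · rcases h2 with ⟨a, b⟩ | ⟨a, b⟩ <;> simp [a, b]
  · rcases h2 with ⟨a, b⟩ | ⟨a, b⟩ <;> simp [a, b]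

theorem d_succ {n : ℕ} (hn : 4 ≤ n) (i j : Fin n) :
    CartanMatrix.D (n + 1) i.succ j.succ = CartanMatrix.D n i j := by
  simp only [CartanMatrix.D, of_apply, Fin.ext_iff, Fin.val_succ]
  split_ifs <;> omega

theorem d_conn {n : ℕ} (hn : 4 ≤ n) (P : Fin n → Prop) (i j : Fin n) (hi : P i)
    (h : ∀ i j, P i → CartanMatrix.D n j i ≠ 0 → P j) : P j := by
  have a : ∀ (x y : ℕ) (hx : x < n) (hy : y < n), (x + 1 = y ∧ y + 1 < n) ∨ (x + 3 = n ∧ y + 1 = n) →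
      (P ⟨x, hx⟩ ↔ P ⟨y, hy⟩) := fun x y hx hy e =>
    ⟨fun c => h _ _ c (by
      simp only [CartanMatrix.D, of_apply, Fin.ext_iff]
      split_ifs <;> omega), fun c => h _ _ c (by
      simp only [CartanMatrix.D, of_apply, Fin.ext_iff]
      split_ifs <;> omega)⟩
  have b : ∀ (x : ℕ) (hx : x + 1 < n), P ⟨0, by omega⟩ ↔ P ⟨x, by omega⟩ := fun x => by
    induction x with
    | zero => exact fun _ => Iff.rfl
    | succ x ih => exact fun hx => (ih (by omega)).trans (a _ _ _ _ (.inl ⟨rfl, hx⟩))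
  have c : ∀ x : Fin n, P ⟨0, by omega⟩ ↔ P x := fun ⟨x, hx⟩ => by
    by_cases e : x + 1 < n
    · exact b x e
    · exact (b (n - 3) (by omega)).trans (a _ _ _ _ (.inr ⟨by omega, by omega⟩))
  exact (c j).1 ((c i).2 hi)

end Vale.Agent.P011UV4
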